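import Vale.Agent.P256.Defs

namespace Vale.Agent.P256

open Matrix

variable {n k : ℕ} (B : Fin n → Fin n → Matrix (Fin k) (Fin k) ℝ)

/-- The matrix-valued bilinear map attached to `B`. -/
def bmat (x y : Fin n → ℝ) : Matrix (Fin k) (Fin k) ℝ := ∑ i, ∑ j, (x i * y j) • B i j

/-- The coefficient matrix of the form attached to `v`. -/
def gmat (v : Fin k → ℝ) : Matrix (Fin n) (Fin n) ℝ :=
  Matrix.of fun i j => v ⬝ᵥ (B i j *ᵥ v)

lemma dot_bmat (v : Fin k → ℝ) (x y : Fin n → ℝ) :
    v ⬝ᵥ (bmat B x y *ᵥ v) = pencilForm B v x y := by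
  simp [bmat, pencilForm, sum_mulVec, smul_mulVec, dotProduct_sum, dotProduct_smul]

lemma pencilForm_eq_gmat (v : Fin k → ℝ) (x y : Fin n → ℝ) :
    pencilForm B v x y = x ⬝ᵥ (gmat B v *ᵥ y) := by
  simp only [pencilForm, gmat, dotProduct, mulVec, Matrix.of_apply, Finset.mul_sum]
  refine Finset.sum_congr rfl fun i _ => Finset.sum_congr rfl fun j _ => ?_
  simp only [Finset.sum_mul, Finset.mul_sum]
  refine Finset.sum_congr rfl fun a _ => Finset.sum_congr rfl fun b _ => ?_
  ring

lemma form_add_left (v : Fin k → ℝ) (x x' y : Fin n → ℝ) :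
    pencilForm B v (x + x') y = pencilForm B v x y + pencilForm B v x' y := by
  simp [pencilForm_eq_gmat, add_dotProduct]

lemma form_add_right (v : Fin k → ℝ) (x y y' : Fin n → ℝ) :
    pencilForm B v x (y + y') = pencilForm B v x y + pencilForm B v x y' := by
  simp [pencilForm_eq_gmat, mulVec_add, dotProduct_add]

lemma form_smul_left (v : Fin k → ℝ) (c : ℝ) (x y : Fin n → ℝ) :
    pencilForm B v (c • x) y = c * pencilForm B v x y := by
  simp [pencilForm_eq_gmat, smul_dotProduct]

lemma form_smul_right (v : Fin k → ℝ) (c : ℝ) (x y : Fin n → ℝ) :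
    pencilForm B v x (c • y) = c * pencilForm B v x y := by
  simp [pencilForm_eq_gmat, mulVec_smul, dotProduct_smul]

lemma form_sub_left (v : Fin k → ℝ) (x x' y : Fin n → ℝ) :
    pencilForm B v (x - x') y = pencilForm B v x y - pencilForm B v x' y := by
  simp [pencilForm_eq_gmat, sub_dotProduct]

lemma form_sub_right (v : Fin k → ℝ) (x y y' : Fin n → ℝ) :
    pencilForm B v x (y - y') = pencilForm B v x y - pencilForm B v x y' := by
  simp [pencilForm_eq_gmat, mulVec_sub, dotProduct_sub]

lemma form_comm (hB : ∀ i j, B j i = B i j) (v : Fin k → ℝ) (x y : Fin n → ℝ) :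
    pencilForm B v x y = pencilForm B v y x := by
  unfold pencilForm
  rw [Finset.sum_comm]
  refine Finset.sum_congr rfl fun i _ => Finset.sum_congr rfl fun j _ => ?_
  rw [hB i j]; ring

lemma form_smul_vec (c : ℝ) (v : Fin k → ℝ) (x y : Fin n → ℝ) :
    pencilForm B (c • v) x y = c ^ 2 * pencilForm B v x y := by
  simp only [← dot_bmat, mulVec_smul, dotProduct_smul, smul_dotProduct, smul_eq_mul]
  ring

lemma bmat_isSymm (hB : ∀ i j, (B i j).IsSymm) (x y : Fin n → ℝ) : (bmat B x y).IsSymm := by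
  simp only [bmat, Matrix.IsSymm, transpose_sum, transpose_smul, (hB _ _).eq]

lemma form_zero_vec (x y : Fin n → ℝ) : pencilForm B (0 : Fin k → ℝ) x y = 0 := by
  simp [pencilForm]

lemma continuous_form : Continuous fun p : (Fin k → ℝ) × (Fin n → ℝ) × (Fin n → ℝ) =>
    pencilForm B p.1 p.2.1 p.2.2 := by
  unfold pencilForm
  simp only [dotProduct, mulVec]
  fun_prop

lemma form_expand (hB : ∀ i j, B j i = B i j) (v : Fin k → ℝ) (t : ℝ) (e x : Fin n → ℝ) :
    pencilForm B v (t • e - x) (t • e - x) =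
      t ^ 2 * pencilForm B v e e - 2 * t * pencilForm B v e x + pencilForm B v x x := by
  simp only [form_sub_left, form_sub_right, form_smul_left, form_smul_right,
    form_comm B hB v x e]
  ring

lemma form_ee_pos {e : Fin n → ℝ} (hpd : (bmat B e e).PosDef) {v : Fin k → ℝ} (hv : v ≠ 0) :
    0 < pencilForm B v e e := by
  simpa [dot_bmat] using hpd.dotProduct_mulVec_pos hv

end Vale.Agent.P256
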