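import Vale.Agent.P256.Defs

namespace Vale.Agent.P256

open Polynomial Topology

variable {m : ℕ} {F : MvPolynomial (Fin m) ℝ} {a : Fin m → ℝ} {d : ℕ}

/-- A real vector as a complex vector. -/
def cplx (x : Fin m → ℝ) : Fin m → ℂ := fun l => (x l : ℂ)

lemma cplx_add (x y : Fin m → ℝ) : cplx (x + y) = cplx x + cplx y := by
  ext l; simp [cplx]

lemma cplx_smul (c : ℝ) (x : Fin m → ℝ) : cplx (c • x) = (c : ℂ) • cplx x := by
  ext l; simp [cplx]

lemma cplx_neg (x : Fin m → ℝ) : cplx (-x) = -cplx x := by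
  ext l; simp [cplx]

lemma aeval_cplx (F : MvPolynomial (Fin m) ℝ) (x : Fin m → ℝ) :
    MvPolynomial.aeval (cplx x) F = ((MvPolynomial.eval x F : ℝ) : ℂ) := by
  have := MvPolynomial.aeval_algebraMap_apply (R := ℝ) (B := ℂ) x F
  unfold cplx
  simpa [MvPolynomial.aeval_eq_eval, Function.comp_def] using this

lemma continuous_aeval_cplx (F : MvPolynomial (Fin m) ℝ) :
    Continuous fun w : Fin m → ℂ => MvPolynomial.aeval w F := by
  induction F using MvPolynomial.induction_on with
  | C r => simpa using continuous_const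
  | add p q hp hq =>
    simp only [map_add]
    exact hp.add hq
  | mul_X p i hp =>
    simp only [map_mul, MvPolynomial.aeval_X]
    exact hp.mul (continuous_apply i)

lemma aeval_smul_hom (hd : F.IsHomogeneous d) (c : ℂ) (w : Fin m → ℂ) :
    MvPolynomial.aeval (c • w) F = c ^ d * MvPolynomial.aeval w F := by
  simp only [MvPolynomial.aeval_def, MvPolynomial.eval₂_eq', Finset.mul_sum, Pi.smul_apply,
    smul_eq_mul, mul_pow, Finset.prod_mul_distrib, Finset.prod_pow_eq_pow_sum]
  refine Finset.sum_congr rfl fun s hs => ?_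
  have : ∑ i, s i = d := by
    have h := hd (MvPolynomial.mem_support_iff.mp hs)
    simpa [Finsupp.weight_apply, Finsupp.sum_fintype] using h
  rw [this]
  ring

lemma eval_smul_hom (hd : F.IsHomogeneous d) (c : ℝ) (w : Fin m → ℝ) :
    MvPolynomial.eval (c • w) F = c ^ d * MvPolynomial.eval w F := by
  have h := aeval_smul_hom hd (c : ℂ) (cplx w)
  rw [← cplx_smul, aeval_cplx, aeval_cplx] at h
  exact_mod_cast h

/-- The polynomial `τ ↦ F (w + τ v)`. -/
noncomputable def linePoly (F : MvPolynomial (Fin m) ℝ) (w v : Fin m → ℂ) : ℂ[X] :=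
  MvPolynomial.aeval (fun l => C (w l) + X * C (v l)) F

lemma linePoly_eval (F : MvPolynomial (Fin m) ℝ) (w v : Fin m → ℂ) (z : ℂ) :
    (linePoly F w v).eval z = MvPolynomial.aeval (w + z • v) F := by
  unfold linePoly
  induction F using MvPolynomial.induction_on with
  | C r => simp
  | add p q hp hq => rw [map_add, eval_add, hp, hq, map_add]
  | mul_X p i hp =>
    rw [map_mul, eval_mul, hp, map_mul]
    simp [mul_comm z]

lemma linePoly_prod (w v : Fin m → ℂ) (s : Fin m → ℕ) (t : Finset (Fin m)) :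
    (∏ i ∈ t, (C (w i) + X * C (v i)) ^ s i).natDegree ≤ ∑ i ∈ t, s i ∧
    (∏ i ∈ t, (C (w i) + X * C (v i)) ^ s i).coeff (∑ i ∈ t, s i) = ∏ i ∈ t, v i ^ s i := by
  have h1 : ∀ i, (C (w i) + X * C (v i)).natDegree ≤ 1 := fun i => by compute_degree
  have hdeg : ∀ i, ((C (w i) + X * C (v i)) ^ s i).natDegree ≤ s i := fun i =>
    natDegree_pow_le.trans (by simpa using Nat.mul_le_mul_left (s i) (h1 i))
  have hcoef : ∀ i, ((C (w i) + X * C (v i)) ^ s i).coeff (s i) = v i ^ s i := by
    intro i
    have := coeff_pow_of_natDegree_le (m := s i) (h1 i)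
    simpa using this
  induction t using Finset.induction with
  | empty => simp
  | insert i t hi ih =>
    rw [Finset.prod_insert hi, Finset.sum_insert hi, Finset.prod_insert hi]
    exact ⟨natDegree_mul_le.trans (Nat.add_le_add (hdeg i) ih.1),
      by rw [coeff_mul_add_eq_of_natDegree_le (hdeg i) ih.1, hcoef, ih.2]⟩

lemma support_sum_eq (hd : F.IsHomogeneous d) {s : Fin m →₀ ℕ} (hs : s ∈ F.support) :
    ∑ i, s i = d := by
  have h := hd (MvPolynomial.mem_support_iff.mp hs)
  simpa [Finsupp.weight_apply, Finsupp.sum_fintype] using h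

lemma linePoly_degree_le (hd : F.IsHomogeneous d) (w v : Fin m → ℂ) :
    (linePoly F w v).natDegree ≤ d := by
  unfold linePoly
  simp only [MvPolynomial.aeval_def, MvPolynomial.eval₂_eq']
  refine natDegree_sum_le_of_forall_le _ _ fun s hs => ?_
  rw [IsScalarTower.algebraMap_apply ℝ ℂ ℂ[X], Polynomial.algebraMap_eq]
  refine (natDegree_C_mul_le _ _).trans ((linePoly_prod w v s Finset.univ).1.trans ?_)
  rw [support_sum_eq hd hs]

lemma linePoly_coeff (hd : F.IsHomogeneous d) (w v : Fin m → ℂ) :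
    (linePoly F w v).coeff d = MvPolynomial.aeval v F := by
  unfold linePoly
  simp only [MvPolynomial.aeval_def, MvPolynomial.eval₂_eq', finsetSum_coeff]
  refine Finset.sum_congr rfl fun s hs => ?_
  have hsum : ∑ i, s i = d := support_sum_eq hd hs
  have := (linePoly_prod w v s Finset.univ).2
  rw [hsum] at this
  rw [IsScalarTower.algebraMap_apply ℝ ℂ ℂ[X], Polynomial.algebraMap_eq, coeff_C_mul, this]

lemma linePoly_lower (hd : F.IsHomogeneous d) (w v : Fin m → ℂ) {z : ℂ} {c : ℝ} (hc : 0 ≤ c)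
    (hv : MvPolynomial.aeval v F ≠ 0)
    (hr : ∀ r : ℂ, MvPolynomial.aeval (w + r • v) F = 0 → c ≤ ‖z - r‖) :
    ‖MvPolynomial.aeval v F‖ * c ^ d ≤ ‖MvPolynomial.aeval (w + z • v) F‖ := by
  have hdeg : (linePoly F w v).natDegree = d :=
    natDegree_eq_of_le_of_coeff_ne_zero (linePoly_degree_le hd w v)
      (by rw [linePoly_coeff hd]; exact hv)
  have hlead : (linePoly F w v).leadingCoeff = MvPolynomial.aeval v F := by
    rw [Polynomial.leadingCoeff, hdeg, linePoly_coeff hd]
  have hspl := IsAlgClosed.splits (linePoly F w v)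
  have hcard : Multiset.card (linePoly F w v).roots = d := by
    rw [← Polynomial.Splits.natDegree_eq_card_roots hspl, hdeg]
  have hprod : ∀ R : Multiset ℂ, (∀ r ∈ R, c ≤ ‖z - r‖) →
      c ^ Multiset.card R ≤ ‖(R.map fun r => z - r).prod‖ := by
    intro R
    induction R using Multiset.induction with
    | empty => simp
    | cons r R ih =>
      intro h
      rw [Multiset.card_cons, Multiset.map_cons, Multiset.prod_cons, norm_mul, pow_succ']
      exact mul_le_mul (h r (Multiset.mem_cons_self r R))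
        (ih fun q hq => h q (Multiset.mem_cons_of_mem hq)) (by positivity) (norm_nonneg _)
  rw [← linePoly_eval]
  conv_rhs => rw [hspl.eq_prod_roots, eval_mul, eval_C, eval_multiset_prod, norm_mul, hlead]
  refine mul_le_mul_of_nonneg_left ?_ (norm_nonneg _)
  rw [Multiset.map_map]
  simp only [Function.comp_def, eval_sub, eval_X, eval_C]
  refine le_trans (le_of_eq (by rw [hcard])) (hprod _ fun r hr' => hr r ?_)
  have hne : linePoly F w v ≠ 0 := fun h0 => hv (by rw [← hlead, h0, leadingCoeff_zero])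
  rw [← linePoly_eval]
  exact (mem_roots hne).mp hr'

lemma roots_lower_half (hF : IsHyperbolicPoly F a) (hd : F.IsHomogeneous d) {v : Fin m → ℝ}
    (hv : ∀ t : ℝ, t ≤ 0 → MvPolynomial.eval (t • a - v) F ≠ 0) (u : Fin m → ℝ) {ε : ℝ}
    (hε : 0 < ε) (r : ℂ)
    (hr : MvPolynomial.aeval (cplx u + (Complex.I * ε) • cplx a + r • cplx v) F = 0) :
    r.im < 0 := by
  have hnev : MvPolynomial.eval v F ≠ 0 := by
    intro h
    apply hv 0 le_rfl
    have h1 : (0 : ℝ) • a - v = (-1 : ℝ) • v := by simp
    rw [h1, eval_smul_hom hd, h, mul_zero]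
  have hnev' : MvPolynomial.aeval (cplx v) F ≠ 0 := by
    rw [aeval_cplx]; exact_mod_cast hnev
  let w : ℝ → Fin m → ℂ := fun s => (s : ℂ) • cplx u + (Complex.I * ε) • cplx a
  have hw : Continuous w :=
    (Complex.continuous_ofReal.smul continuous_const).add continuous_const
  have hreal : ∀ (s : ℝ) (q : ℂ), q.im = 0 →
      MvPolynomial.aeval (w s + q • cplx v) F ≠ 0 := by
    intro s q hq h
    have hq' : q = (q.re : ℂ) := Complex.ext (by simp) (by simp [hq])
    have := hF.2.2 (-(s • u + q.re • v)) (Complex.I * ε) ?_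
    · simp at this; linarith
    · rw [← h]
      congr 1
      apply congrArg
      funext l
      rw [hq']
      simp [w, cplx]
      ring
  let Bad : Set ℝ := {s | s ∈ Set.Icc (0 : ℝ) 1 ∧
    ∃ q : ℂ, 0 ≤ q.im ∧ MvPolynomial.aeval (w s + q • cplx v) F = 0}
  let Good : Set ℝ := {s | s ∈ Set.Icc (0 : ℝ) 1 ∧
    ∀ q : ℂ, MvPolynomial.aeval (w s + q • cplx v) F = 0 → q.im ≤ 0}
  have hbad : IsClosed Bad := by
    obtain ⟨δ, hδ, hball⟩ := Metric.eventually_nhds_iff.mp
      ((continuous_aeval_cplx F).continuousAt.eventually_ne hnev')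
    obtain ⟨M, hM⟩ := isCompact_Icc.exists_bound_of_continuousOn
      (s := Set.Icc (0 : ℝ) 1) hw.continuousOn
    have hroot : ∀ s ∈ Set.Icc (0 : ℝ) 1, ∀ q : ℂ,
        MvPolynomial.aeval (w s + q • cplx v) F = 0 → ‖q‖ ≤ M / δ := by
      intro s hs q hq
      by_contra hlt
      push Not at hlt
      have hM0 : 0 ≤ M := (norm_nonneg _).trans (hM s hs)
      have hqpos : 0 < ‖q‖ := lt_of_le_of_lt (div_nonneg hM0 hδ.le) hlt
      have hq0 : q ≠ 0 := norm_pos_iff.mp hqpos
      have h2 : w s + q • cplx v = q • (cplx v + q⁻¹ • w s) := by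
        rw [smul_add, smul_smul, mul_inv_cancel₀ hq0, one_smul, add_comm]
      rw [h2, aeval_smul_hom hd, mul_eq_zero] at hq
      refine hq.elim (fun h => pow_ne_zero _ hq0 h) (hball ?_)
      rw [dist_eq_norm, add_sub_cancel_left, norm_smul, norm_inv, inv_mul_lt_iff₀ hqpos]
      rw [div_lt_iff₀ hδ] at hlt
      exact lt_of_le_of_lt (hM s hs) hlt
    have : Bad = Prod.fst '' ((Set.Icc (0 : ℝ) 1 ×ˢ Metric.closedBall (0 : ℂ) (M / δ)) ∩
        {p : ℝ × ℂ | 0 ≤ p.2.im ∧ MvPolynomial.aeval (w p.1 + p.2 • cplx v) F = 0}) := by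
      ext s
      simp only [Set.mem_image, Set.mem_inter_iff, Set.mem_prod, Set.mem_ofPred_eq,
        Metric.mem_closedBall, dist_zero_right, Prod.exists, exists_and_right, exists_eq_right, Bad]
      constructor
      · rintro ⟨hs, q, hq1, hq2⟩
        exact ⟨q, ⟨hs, hroot s hs q hq2⟩, hq1, hq2⟩
      · rintro ⟨q, ⟨hs, _⟩, hq1, hq2⟩
        exact ⟨hs, q, hq1, hq2⟩
    rw [this]
    refine (((isCompact_Icc.prod (isCompact_closedBall _ _)).inter_right ?_).image
      continuous_fst).isClosed
    exact (isClosed_le continuous_const (Complex.continuous_im.comp continuous_snd)).inter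
      (isClosed_eq ((continuous_aeval_cplx F).comp
        ((hw.comp continuous_fst).add (continuous_snd.smul continuous_const))) continuous_const)
  have hgood : IsClosed Good := by
    have : Good = Set.Icc (0 : ℝ) 1 ∩ ⋂ z : {z : ℂ // 0 < z.im},
        {s | ‖MvPolynomial.aeval (cplx v) F‖ * z.1.im ^ d ≤
          ‖MvPolynomial.aeval (w s + z.1 • cplx v) F‖} := by
      ext s
      simp only [Good, Set.mem_inter_iff, Set.mem_iInter, Set.mem_ofPred_eq, Subtype.forall]
      refine and_congr_right fun _ => ⟨fun h z hz => ?_, fun h q hq => ?_⟩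
      · refine linePoly_lower hd _ _ hz.le hnev' fun q hq => ?_
        have h1 := Complex.abs_im_le_norm (z - q)
        rw [Complex.sub_im] at h1
        linarith [h q hq, le_abs_self (z.im - q.im)]
      · by_contra hpos
        push Not at hpos
        have := h q hpos
        rw [hq, norm_zero] at this
        have h0 : 0 < ‖MvPolynomial.aeval (cplx v) F‖ * q.im ^ d :=
          mul_pos (norm_pos_iff.mpr hnev') (pow_pos hpos d)
        linarith
    rw [this]
    exact isClosed_Icc.inter (isClosed_iInter fun z => isClosed_le continuous_const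
      ((continuous_aeval_cplx F).comp (hw.add continuous_const)).norm)
  have hdisj : ∀ s ∈ Good, s ∉ Bad := by
    rintro s ⟨_, hg⟩ ⟨_, q, hq1, hq2⟩
    exact hreal s q (le_antisymm (hg q hq2) hq1) hq2
  have h0 : (0 : ℝ) ∈ Good := by
    refine ⟨by simp, fun q hq => ?_⟩
    by_cases hq0 : q.im = 0
    · exact hq0.le
    have hqne : q ≠ 0 := fun h => hq0 (by simp [h])
    have hw0 : w 0 + q • cplx v =
        (-q) • (fun l => (-(Complex.I * ε) / q) * (a l : ℂ) - (v l : ℂ)) := by
      ext l
      simp [w, cplx]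
      field_simp
      ring
    rw [hw0, aeval_smul_hom hd, mul_eq_zero] at hq
    have hz := hq.resolve_left (pow_ne_zero _ (neg_ne_zero.mpr hqne))
    set z : ℂ := -(Complex.I * ε) / q with hzdef
    have hzim := hF.2.2 v z hz
    have hzr : z = ((z.re : ℝ) : ℂ) := Complex.ext (by simp) (by simp [hzim])
    have hzpos : 0 < z.re := by
      by_contra hle
      refine hv z.re (not_lt.mp hle) ?_
      have h3 : MvPolynomial.aeval (cplx (z.re • a - v)) F = 0 := by
        rw [← hz, hzr]
        apply congrArg (fun f : Fin m → ℂ => MvPolynomial.aeval f F)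
        ext l; simp [cplx]
      rw [aeval_cplx] at h3
      exact_mod_cast h3
    have hq2 : q = -(Complex.I * ε) / (z.re : ℂ) := by
      rw [← hzr, hzdef]
      have hε0 : (ε : ℂ) ≠ 0 := by exact_mod_cast hε.ne'
      field_simp
    rw [hq2]
    simp [Complex.div_im, Complex.normSq_ofReal]
    exact div_nonpos_of_nonpos_of_nonneg (by nlinarith) (mul_self_nonneg _)

  have hcover : Set.Icc (0 : ℝ) 1 ⊆ Good ∪ Bad := by
    intro s hs
    by_cases h : ∀ q : ℂ, MvPolynomial.aeval (w s + q • cplx v) F = 0 → q.im ≤ 0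
    · exact Or.inl ⟨hs, h⟩
    · push Not at h
      obtain ⟨q, hq1, hq2⟩ := h
      exact Or.inr ⟨hs, q, hq2.le, hq1⟩
  by_contra hr'
  push Not at hr'
  have h1 : (1 : ℝ) ∈ Bad := ⟨by simp, r, hr', by simpa [w] using hr⟩
  obtain ⟨s, _, hsg, hsb⟩ := isPreconnected_closed_iff.mp isPreconnected_Icc Good Bad hgood hbad
    hcover ⟨0, by simp, h0⟩ ⟨1, by simp, h1⟩
  exact hdisj s hsg hsb

/-- A point of the cone is strictly inside after adding a positive multiple of `a`. -/
lemma add_smul_strict {v : Fin m → ℝ} (hv : v ∈ hyperbolicityCone F a) {δ : ℝ} (hδ : 0 < δ)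
    {t : ℝ} (ht : t ≤ 0) : MvPolynomial.eval (t • a - (v + δ • a)) F ≠ 0 := by
  intro h
  have h1 : t • a - (v + δ • a) = (t - δ) • a - v := by rw [sub_smul]; abel
  rw [h1] at h
  linarith [hv (t - δ) h]

theorem tube_ne_zero (hF : IsHyperbolicPoly F a) (hd : F.IsHomogeneous d) {v : Fin m → ℝ}
    (hv : v ∈ hyperbolicityCone F a) (u : Fin m → ℝ) {ε : ℝ} (hε : 0 < ε) :
    MvPolynomial.aeval (cplx u + Complex.I • cplx (ε • a + v)) F ≠ 0 := by
  intro h
  have h2 : cplx u + (Complex.I * ((ε / 2 : ℝ) : ℂ)) • cplx a +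
      Complex.I • cplx (v + (ε / 2) • a) = cplx u + Complex.I • cplx (ε • a + v) := by
    ext l; simp [cplx]; ring
  have := roots_lower_half hF hd (v := v + (ε / 2) • a)
    (fun t ht => add_smul_strict hv (by linarith) ht) u (half_pos hε) Complex.I
    (by rw [h2]; exact h)
  simp at this
  linarith

lemma cone_closed (hF : IsHyperbolicPoly F a) (hd : F.IsHomogeneous d) :
    IsClosed (hyperbolicityCone F a) := by
  have hFa : MvPolynomial.aeval (cplx a) F ≠ 0 := by
    rw [aeval_cplx]; exact_mod_cast hF.2.1.ne'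
  have : hyperbolicityCone F a = ⋂ t : {t : ℝ // t < 0},
      {x | ‖MvPolynomial.aeval (cplx a) F‖ * |t.1| ^ d ≤
        ‖MvPolynomial.aeval (cplx (t.1 • a - x)) F‖} := by
    ext x
    simp only [Set.mem_iInter, Set.mem_ofPred_eq, Subtype.forall]
    constructor
    · intro hx t ht
      have h1 : cplx (t • a - x) = -cplx x + (t : ℂ) • cplx a := by ext l; simp [cplx]; ring
      rw [h1]
      refine linePoly_lower hd _ _ (abs_nonneg t) hFa fun q hq => ?_
      have hq' : MvPolynomial.aeval (fun l => q * (a l : ℂ) - (x l : ℂ)) F = 0 := by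
        rw [← hq]
        apply congrArg (fun f : Fin m → ℂ => MvPolynomial.aeval f F)
        ext l; simp [cplx]; ring
      have hqr : q = ((q.re : ℝ) : ℂ) := Complex.ext (by simp) (by simp [hF.2.2 x q hq'])
      have hq0 : 0 ≤ q.re := by
        refine hx q.re ?_
        have h3 : MvPolynomial.aeval (cplx (q.re • a - x)) F = 0 := by
          rw [← hq', hqr]
          apply congrArg (fun f : Fin m → ℂ => MvPolynomial.aeval f F)
          ext l; simp [cplx]
        rw [aeval_cplx] at h3
        exact_mod_cast h3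
      rw [hqr, ← Complex.ofReal_sub, Complex.norm_real, Real.norm_eq_abs, abs_of_neg ht,
        abs_of_neg (by linarith)]
      linarith
    · intro h t ht
      by_contra hneg
      push Not at hneg
      have h4 := h t hneg
      rw [aeval_cplx F (t • a - x), ht, Complex.ofReal_zero, norm_zero] at h4
      have : 0 < ‖MvPolynomial.aeval (cplx a) F‖ * |t| ^ d :=
        mul_pos (norm_pos_iff.mpr hFa) (pow_pos (abs_pos.mpr hneg.ne) d)
      linarith
  rw [this]
  refine isClosed_iInter fun t => isClosed_le continuous_const ?_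
  refine ((continuous_aeval_cplx F).comp ?_).norm
  exact continuous_pi fun l => Complex.continuous_ofReal.comp
    ((continuous_apply l).comp (continuous_const.sub continuous_id))

lemma cone_eventually (hF : IsHyperbolicPoly F a) (hd : F.IsHomogeneous d) {v : Fin m → ℝ}
    (hv : v ∈ hyperbolicityCone F a) (hne : MvPolynomial.eval v F ≠ 0) :
    ∀ᶠ x in 𝓝 v, x ∈ hyperbolicityCone F a := by
  have hc : Continuous fun p : ℝ × (Fin m → ℝ) => MvPolynomial.eval (p.1 • a - p.2) F :=
    (MvPolynomial.continuous_eval F).comp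
      ((continuous_fst.smul continuous_const).sub continuous_snd)
  obtain ⟨δ, hδ, hball⟩ := Metric.eventually_nhds_iff.mp
    ((MvPolynomial.continuous_eval F).continuousAt.eventually_ne hF.2.1.ne')
  let M : ℝ := (‖v‖ + 1) / δ
  have hM : 0 < M := by positivity
  have hK : ∀ t ∈ Set.Icc (-M) 0, ∀ᶠ p : (Fin m → ℝ) × ℝ in 𝓝 (v, t),
      MvPolynomial.eval (p.2 • a - p.1) F ≠ 0 := by
    intro t ht
    have ht0 : MvPolynomial.eval (t • a - v) F ≠ 0 := by
      intro h
      have ht' : t = 0 := le_antisymm ht.2 (hv t h)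
      rw [ht', show (0 : ℝ) • a - v = (-1 : ℝ) • v by simp, eval_smul_hom hd] at h
      exact hne ((mul_eq_zero.mp h).resolve_left (pow_ne_zero _ (by norm_num)))
    exact (hc.comp (continuous_snd.prodMk continuous_fst)).continuousAt.eventually_ne ht0
  filter_upwards [isCompact_Icc.eventually_forall_of_forall_eventually
    (P := fun x t => MvPolynomial.eval (t • a - x) F ≠ 0) hK,
    Metric.ball_mem_nhds v one_pos] with x hx hxv t ht
  by_contra hneg
  push Not at hneg
  by_cases hMt : -M ≤ t
  · exact hx t ⟨hMt, hneg.le⟩ ht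
  · push Not at hMt
    have h2 : t • a - x = t • (a - t⁻¹ • x) := by
      rw [smul_sub, smul_smul, mul_inv_cancel₀ hneg.ne, one_smul]
    rw [h2, eval_smul_hom hd, mul_eq_zero] at ht
    refine ht.elim (fun h => pow_ne_zero _ hneg.ne h) (hball ?_)
    rw [dist_eq_norm, sub_sub_cancel_left, norm_neg, norm_smul, norm_inv, Real.norm_eq_abs,
      abs_of_neg hneg, inv_mul_lt_iff₀ (by linarith)]
    have hxv' : ‖x‖ < ‖v‖ + 1 := by
      have h9 : ‖x - v‖ < 1 := by simpa [dist_eq_norm] using hxv
      have := norm_sub_norm_le x v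
      linarith
    have : M * δ < -t * δ := mul_lt_mul_of_pos_right (by linarith) hδ
    rw [div_mul_cancel₀ _ hδ.ne'] at this
    linarith

end Vale.Agent.P256
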