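import Vale.Agent.P256.Shadow

namespace Vale.Agent.P256

open Matrix

variable {n k : ℕ} (B : Fin n → Fin n → Matrix (Fin k) (Fin k) ℝ)

/-- The forms that are nonpositive on the hyperplane orthogonal to `μ`. -/
def InChart (μ : Fin n → ℝ) (v : Fin k → ℝ) : Prop :=
  ∀ x, μ ⬝ᵥ x = 0 → pencilForm B v x x ≤ 0

/-- The projection along `e` onto the hyperplane orthogonal to `μ`. -/
def proj (e μ : Fin n → ℝ) : (Fin n → ℝ) →ₗ[ℝ] (Fin n → ℝ) where
  toFun y := y - (μ ⬝ᵥ y) • e
  map_add' y z := by rw [dotProduct_add, add_smul]; abel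
  map_smul' c y := by simp [dotProduct_smul, smul_sub, smul_smul]

lemma dot_proj {e μ : Fin n → ℝ} (hμ : μ ⬝ᵥ e = 1) (y : Fin n → ℝ) :
    μ ⬝ᵥ proj e μ y = 0 := by
  simp [proj, dotProduct_sub, dotProduct_smul, hμ]

lemma proj_of_dot_zero (e : Fin n → ℝ) {μ y : Fin n → ℝ} (h : μ ⬝ᵥ y = 0) :
    proj e μ y = y := by
  simp [proj, h]

lemma self_eq_proj (e μ y : Fin n → ℝ) : y = (μ ⬝ᵥ y) • e + proj e μ y := by
  simp [proj]

/-- The directions of the hyperplane annihilated by all forms of the chart. -/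
def nullSpace (μ : Fin n → ℝ) : Submodule ℝ (Fin n → ℝ) where
  carrier := {z | μ ⬝ᵥ z = 0 ∧
    ∀ v, InChart B μ v → ∀ w, μ ⬝ᵥ w = 0 → pencilForm B v z w = 0}
  add_mem' := by
    intro a b ha hb
    refine ⟨by simp [dotProduct_add, ha.1, hb.1], fun v hv w hw => ?_⟩
    simp [form_add_left, ha.2 v hv w hw, hb.2 v hv w hw]
  zero_mem' := by
    refine ⟨by simp, fun v _ w _ => ?_⟩
    simp [pencilForm]
  smul_mem' := by
    intro c a ha
    refine ⟨by simp [dotProduct_smul, ha.1], fun v hv w hw => ?_⟩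
    simp [form_smul_left, ha.2 v hv w hw]

lemma exists_nullProj (μ : Fin n → ℝ) :
    ∃ π : (Fin n → ℝ) →ₗ[ℝ] (Fin n → ℝ), (∀ y, π y ∈ nullSpace B μ) ∧
      ∀ y ∈ nullSpace B μ, π y = y := by
  obtain ⟨f, hf⟩ := LinearMap.exists_extend (LinearMap.id : nullSpace B μ →ₗ[ℝ] nullSpace B μ)
  refine ⟨(nullSpace B μ).subtype.comp f, fun y => (f y).2, fun y hy => ?_⟩
  have := LinearMap.congr_fun hf ⟨y, hy⟩
  exact congrArg Subtype.val this

/-- The matrix of `proj e μ`. -/
def pm (e μ : Fin n → ℝ) : Matrix (Fin n) (Fin n) ℝ := 1 - vecMulVec e μ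

lemma pm_mulVec (e μ y : Fin n → ℝ) : pm e μ *ᵥ y = proj e μ y := by
  simp [pm, proj, sub_mulVec, vecMulVec_mulVec]

/-- The linearization of the quadratic map on the hyperplane. -/
def lin (e μ : Fin n → ℝ) (M : Matrix (Fin n) (Fin n) ℝ) : Matrix (Fin k) (Fin k) ℝ :=
  ∑ a, ∑ b, (pm e μ * M * (pm e μ)ᵀ) a b • B a b

/-- The linearization as seen by the vector `v`. -/
def contr (e μ : Fin n → ℝ) (v : Fin k → ℝ) (M : Matrix (Fin n) (Fin n) ℝ) : ℝ :=
  ∑ a, ∑ b, (pm e μ * M * (pm e μ)ᵀ) a b * (v ⬝ᵥ (B a b *ᵥ v))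

lemma dot_lin (e μ : Fin n → ℝ) (v : Fin k → ℝ) (M : Matrix (Fin n) (Fin n) ℝ) :
    v ⬝ᵥ (lin B e μ M *ᵥ v) = contr B e μ v M := by
  simp [lin, contr, sum_mulVec, smul_mulVec, dotProduct_sum, dotProduct_smul]

lemma contr_vecMulVec (e μ : Fin n → ℝ) (v : Fin k → ℝ) (u : Fin n → ℝ) :
    contr B e μ v (vecMulVec u u) = pencilForm B v (proj e μ u) (proj e μ u) := by
  simp [contr, pencilForm, mul_vecMulVec, vecMulVec_mul, vecMul_transpose, pm_mulVec,
    vecMulVec_apply]

lemma contr_add (e μ : Fin n → ℝ) (v : Fin k → ℝ) (M N : Matrix (Fin n) (Fin n) ℝ) :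
    contr B e μ v (M + N) = contr B e μ v M + contr B e μ v N := by
  simp [contr, mul_add, add_mul, Finset.sum_add_distrib]

lemma contr_smul (e μ : Fin n → ℝ) (v : Fin k → ℝ) (c : ℝ) (M : Matrix (Fin n) (Fin n) ℝ) :
    contr B e μ v (c • M) = c * contr B e μ v M := by
  simp [contr, Finset.mul_sum, mul_assoc]

lemma contr_sum {ι : Type*} (s : Finset ι) (e μ : Fin n → ℝ) (v : Fin k → ℝ)
    (M : ι → Matrix (Fin n) (Fin n) ℝ) :
    contr B e μ v (∑ i ∈ s, M i) = ∑ i ∈ s, contr B e μ v (M i) :=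
  map_sum ({ toFun := contr B e μ v, map_zero' := by simp [contr],
             map_add' := contr_add B e μ v } : Matrix (Fin n) (Fin n) ℝ →+ ℝ) M s

lemma contr_nonpos {e μ : Fin n → ℝ} (hμ : μ ⬝ᵥ e = 1) {v : Fin k → ℝ} (hv : InChart B μ v)
    {M : Matrix (Fin n) (Fin n) ℝ} (hM : M.PosSemidef) : contr B e μ v M ≤ 0 := by
  obtain ⟨m, w, rfl⟩ := posSemidef_iff_eq_sum_vecMulVec.mp hM
  rw [contr_sum]
  refine Finset.sum_nonpos fun i _ => ?_
  rw [star_trivial, contr_vecMulVec]
  exact hv _ (dot_proj hμ _)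

/-- The symmetric matrix of the free variables. -/
def symVar (X : Fin n × Fin n → ℝ) : Matrix (Fin n) (Fin n) ℝ :=
  of fun a b => X (a, b) + X (b, a)

/-- One chart of the lift. -/
def chart (e μ : Fin n → ℝ) (π : (Fin n → ℝ) →ₗ[ℝ] (Fin n → ℝ)) (y z : Fin n → ℝ)
    (X : Fin n × Fin n → ℝ) :
    Matrix ((Unit ⊕ Fin n) ⊕ Fin k) ((Unit ⊕ Fin n) ⊕ Fin k) ℝ :=
  fromBlocks (border (μ ⬝ᵥ y) (proj e μ y - π z) (symVar X)) 0 0
    ((μ ⬝ᵥ y) • bmat B e e + (2 : ℝ) • bmat B e (proj e μ y) + lin B e μ (symVar X))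

lemma bmat_add_right (x y z : Fin n → ℝ) : bmat B x (y + z) = bmat B x y + bmat B x z := by
  simp [bmat, mul_add, add_smul, Finset.sum_add_distrib]

lemma bmat_smul_right (c : ℝ) (x y : Fin n → ℝ) : bmat B x (c • y) = c • bmat B x y := by
  simp [bmat, Finset.smul_sum, smul_smul, mul_left_comm]

lemma lin_add (e μ : Fin n → ℝ) (M N : Matrix (Fin n) (Fin n) ℝ) :
    lin B e μ (M + N) = lin B e μ M + lin B e μ N := by
  simp [lin, mul_add, add_mul, add_smul, Finset.sum_add_distrib]

lemma lin_smul (e μ : Fin n → ℝ) (c : ℝ) (M : Matrix (Fin n) (Fin n) ℝ) :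
    lin B e μ (c • M) = c • lin B e μ M := by
  simp [lin, Finset.smul_sum, smul_smul]

lemma border_add {τ σ : ℝ} {u w : Fin n → ℝ} {M N : Matrix (Fin n) (Fin n) ℝ} :
    border (τ + σ) (u + w) (M + N) = border τ u M + border σ w N := by
  ext (i | i) (j | j) <;> simp [border]

lemma border_smul {c τ : ℝ} {u : Fin n → ℝ} {M : Matrix (Fin n) (Fin n) ℝ} :
    border (c * τ) (c • u) (c • M) = c • border τ u M := by
  ext (i | i) (j | j) <;> simp [border]

lemma chart_add (e μ : Fin n → ℝ) (π : (Fin n → ℝ) →ₗ[ℝ] (Fin n → ℝ)) (y y' z z' : Fin n → ℝ)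
    (X X' : Fin n × Fin n → ℝ) :
    chart B e μ π (y + y') (z + z') (X + X') = chart B e μ π y z X + chart B e μ π y' z' X' := by
  have hs : symVar (X + X') = symVar X + symVar X' := by ext; simp [symVar]; ring
  simp only [chart, fromBlocks_add, hs, lin_add, bmat_add_right, dotProduct_add, map_add,
    add_sub_add_comm, border_add, add_smul, smul_add, add_zero]
  congr 1
  abel

lemma chart_smul (e μ : Fin n → ℝ) (π : (Fin n → ℝ) →ₗ[ℝ] (Fin n → ℝ)) (c : ℝ)
    (y z : Fin n → ℝ) (X : Fin n × Fin n → ℝ) :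
    chart B e μ π (c • y) (c • z) (c • X) = c • chart B e μ π y z X := by
  have hs : symVar (c • X) = c • symVar X := by ext; simp [symVar]; ring
  simp only [chart, fromBlocks_smul, hs, lin_smul, bmat_smul_right, dotProduct_smul, map_smul,
    smul_eq_mul, ← smul_sub, border_smul, smul_zero, smul_add, smul_smul, mul_comm c (2 : ℝ)]

lemma chart_isSymm (hS : ∀ i j, (B i j).IsSymm) (e μ : Fin n → ℝ)
    (π : (Fin n → ℝ) →ₗ[ℝ] (Fin n → ℝ)) (y z : Fin n → ℝ) (X : Fin n × Fin n → ℝ) :
    (chart B e μ π y z X).IsSymm := by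
  refine Matrix.IsSymm.fromBlocks ?_ (by simp) ?_
  · refine Matrix.IsSymm.fromBlocks ?_ ?_ ?_
    · ext; simp
    · ext; simp
    · ext; simp [symVar]; ring
  · refine ((bmat_isSymm B hS e e).smul _ |>.add ((bmat_isSymm B hS e _).smul _)).add ?_
    simp only [lin, Matrix.IsSymm, transpose_sum, transpose_smul, (hS _ _).eq]

/-- Soundness of a chart: it certifies the forward-cone conditions of its forms. -/
lemma chart_sound (hB : ∀ i j, B j i = B i j) {e μ : Fin n → ℝ} (hμ : μ ⬝ᵥ e = 1)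
    {π : (Fin n → ℝ) →ₗ[ℝ] (Fin n → ℝ)} (hπ : ∀ z, π z ∈ nullSpace B μ)
    {y z : Fin n → ℝ} {X : Fin n × Fin n → ℝ} (h : (chart B e μ π y z X).PosSemidef)
    {v : Fin k → ℝ} (hv : InChart B μ v) (hα : 0 ≤ pencilForm B v e e) :
    0 ≤ pencilForm B v y y ∧ 0 ≤ pencilForm B v e y := by
  obtain ⟨h1, h2⟩ := (posSemidef_fromBlocks_iff _ _).mp h
  obtain ⟨hτ, hz, hp⟩ := border_posSemidef_imp h1
  have hq := h2.dotProduct_mulVec_nonneg v
  simp only [star_trivial, add_mulVec, smul_mulVec, dotProduct_add, dotProduct_smul, smul_eq_mul,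
    dot_bmat, dot_lin] at hq
  have hy := self_eq_proj e μ y
  have hpy := dot_proj hμ y
  have hey : pencilForm B v e y =
      (μ ⬝ᵥ y) * pencilForm B v e e + pencilForm B v e (proj e μ y) := by
    conv_lhs => rw [hy]
    rw [form_add_right, form_smul_right]
  have hyy : pencilForm B v y y = (μ ⬝ᵥ y) ^ 2 * pencilForm B v e e +
      2 * (μ ⬝ᵥ y) * pencilForm B v e (proj e μ y) +
      pencilForm B v (proj e μ y) (proj e μ y) := by
    conv_lhs => rw [hy]
    simp only [form_add_left, form_add_right, form_smul_left, form_smul_right,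
      form_comm B hB v (proj e μ y) e]
    ring
  rcases hτ.eq_or_lt with h0 | hpos
  · obtain ⟨hu, hM⟩ := hz h0.symm
    have hc := contr_nonpos B hμ hv hM
    have hN : proj e μ y ∈ nullSpace B μ := by rw [sub_eq_zero.mp hu]; exact hπ z
    have := hN.2 v hv _ hpy
    rw [hyy, hey, ← h0, this]
    rw [← h0] at hq
    constructor <;> linarith
  · have hd := contr_nonpos B hμ hv (hp hpos)
    rw [sub_eq_add_neg, contr_add, ← neg_smul, contr_smul, contr_vecMulVec,
      proj_of_dot_zero e (by simp [dotProduct_sub, hpy, (hπ z).1])] at hd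
    have hzz : pencilForm B v (proj e μ y - π z) (proj e μ y - π z) =
        pencilForm B v (proj e μ y) (proj e μ y) := by
      simp only [form_sub_left, form_sub_right, form_comm B hB v (proj e μ y) (π z),
        (hπ z).2 v hv _ hpy, (hπ z).2 v hv _ (hπ z).1]
      ring
    rw [hzz] at hd
    have hn : pencilForm B v (proj e μ y) (proj e μ y) ≤ 0 := hv _ hpy
    rw [hyy, hey]
    generalize pencilForm B v (proj e μ y) (proj e μ y) = g at *
    generalize pencilForm B v e (proj e μ y) = β at *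
    generalize pencilForm B v e e = α at *
    generalize μ ⬝ᵥ y = τ at *
    generalize contr B e μ v (symVar X) = C at *
    have hC : τ * C ≤ g := by
      have h9 := mul_le_mul_of_nonneg_left hd hpos.le
      rw [mul_zero, mul_add, ← mul_assoc, mul_neg, mul_inv_cancel₀ hpos.ne'] at h9
      linarith
    have hnn : 0 ≤ τ * τ * α + 2 * τ * β + g := by
      nlinarith [mul_nonneg hpos.le hq]
    constructor
    · linarith [sq τ, hnn]
    · by_contra hc
      nlinarith [mul_pos hpos (neg_pos.mpr (not_le.mp hc)), mul_nonneg (mul_nonneg hpos.le hpos.le) hα]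

/-- Completeness of a chart that contains at least one nonzero vector. -/
lemma chart_complete (hS : ∀ i j, (B i j).IsSymm) (hB : ∀ i j, B j i = B i j)
    {e μ : Fin n → ℝ} (hμ : μ ⬝ᵥ e = 1)
    {π : (Fin n → ℝ) →ₗ[ℝ] (Fin n → ℝ)} (hπ : ∀ z ∈ nullSpace B μ, π z = z)
    {v₀ : Fin k → ℝ} (hv₀ : InChart B μ v₀) (hα : 0 < pencilForm B v₀ e e) {y : Fin n → ℝ}
    (hy : ∀ v, 0 ≤ pencilForm B v y y ∧ 0 ≤ pencilForm B v e y) :
    ∃ z X, (chart B e μ π y z X).PosSemidef := by
  have hpy := dot_proj hμ y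
  have hsy := self_eq_proj e μ y
  have hexp : ∀ v, pencilForm B v e y =
      (μ ⬝ᵥ y) * pencilForm B v e e + pencilForm B v e (proj e μ y) ∧
      pencilForm B v y y = (μ ⬝ᵥ y) ^ 2 * pencilForm B v e e +
        2 * (μ ⬝ᵥ y) * pencilForm B v e (proj e μ y) +
        pencilForm B v (proj e μ y) (proj e μ y) := by
    intro v
    constructor
    · conv_lhs => rw [hsy]
      rw [form_add_right, form_smul_right]
    · conv_lhs => rw [hsy]
      simp only [form_add_left, form_add_right, form_smul_left, form_smul_right,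
        form_comm B hB v (proj e μ y) e]
      ring
  have hτ : 0 ≤ μ ⬝ᵥ y := by
    by_contra hneg
    have h1 := (hy v₀).1
    have h2 := (hy v₀).2
    rw [(hexp v₀).2] at h1
    rw [(hexp v₀).1] at h2
    have h3 := hv₀ _ hpy
    generalize pencilForm B v₀ (proj e μ y) (proj e μ y) = g at *
    generalize pencilForm B v₀ e (proj e μ y) = β at *
    generalize pencilForm B v₀ e e = α at *
    generalize μ ⬝ᵥ y = τ at *
    have hβ : 0 < β := by
      nlinarith [mul_pos hα (neg_pos.mpr (not_le.mp hneg))]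
    nlinarith [mul_nonneg h2 (neg_pos.mpr (not_le.mp hneg)).le,
      mul_pos hβ (neg_pos.mpr (not_le.mp hneg))]
  have herm : ∀ M : Matrix (Fin k) (Fin k) ℝ, M.IsSymm → M.IsHermitian := fun M hM => by
    simpa [Matrix.IsHermitian, Matrix.IsSymm] using hM
  have hsym2 : ((μ ⬝ᵥ y) • bmat B e e + (2 : ℝ) • bmat B e (proj e μ y)).IsSymm :=
    ((bmat_isSymm B hS e e).smul _).add ((bmat_isSymm B hS e _).smul _)
  have hlin : ∀ M, (lin B e μ M).IsSymm := fun M => by
    simp only [lin, Matrix.IsSymm, transpose_sum, transpose_smul, (hS _ _).eq]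
  rcases hτ.eq_or_lt with h0 | hpos
  · have hp0 : proj e μ y = y := proj_of_dot_zero e h0.symm
    have hN : y ∈ nullSpace B μ := by
      refine ⟨h0.symm, fun v hv w hw => ?_⟩
      have hyy : pencilForm B v y y = 0 := le_antisymm (hv y h0.symm) (hy v).1
      have hs : ∀ s : ℝ, 2 * s * pencilForm B v y w + s ^ 2 * pencilForm B v w w ≤ 0 := by
        intro s
        have := hv (y + s • w) (by simp [dotProduct_add, dotProduct_smul, ← h0, hw])
        simp only [form_add_left, form_add_right, form_smul_left, form_smul_right,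
          form_comm B hB v w y, hyy] at this
        linarith
      generalize pencilForm B v y w = a at *
      generalize pencilForm B v w w = b at *
      have h3 := hs (a / (1 + |b|))
      have hd : (0 : ℝ) < 1 + |b| := by positivity
      field_simp at h3
      nlinarith [neg_abs_le b, sq_nonneg a, abs_nonneg b]
    refine ⟨y, 0, (posSemidef_fromBlocks_iff _ _).mpr ⟨?_, ?_⟩⟩
    · have hz : symVar (0 : Fin n × Fin n → ℝ) = 0 := by ext; simp [symVar]
      rw [← h0, hp0, hπ y hN, sub_self, hz]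
      exact border_zero
    · refine PosSemidef.of_dotProduct_mulVec_nonneg (herm _ (hsym2.add (hlin _))) fun v => ?_
      simp only [star_trivial, add_mulVec, smul_mulVec, dotProduct_add, dotProduct_smul,
        smul_eq_mul, dot_bmat, dot_lin, ← h0, hp0]
      have hl : contr B e μ v (symVar (0 : Fin n × Fin n → ℝ)) = 0 := by
        have hz : symVar (0 : Fin n × Fin n → ℝ) = 0 := by ext; simp [symVar]
        rw [hz]; simp [contr]
      rw [hl]
      linarith [(hy v).2]
  · refine ⟨0, fun p => (μ ⬝ᵥ y)⁻¹ * proj e μ y p.1 * proj e μ y p.2 / 2, ?_⟩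
    have hs : symVar (fun p : Fin n × Fin n =>
        (μ ⬝ᵥ y)⁻¹ * proj e μ y p.1 * proj e μ y p.2 / 2) =
        (μ ⬝ᵥ y)⁻¹ • vecMulVec (proj e μ y) (proj e μ y) := by
      ext a b; simp [symVar, vecMulVec_apply]; ring
    refine (posSemidef_fromBlocks_iff _ _).mpr ⟨?_, ?_⟩
    · rw [map_zero, sub_zero, hs]
      exact border_posSemidef_of_pos hpos _
    · refine PosSemidef.of_dotProduct_mulVec_nonneg (herm _ (hsym2.add (hlin _))) fun v => ?_
      simp only [star_trivial, add_mulVec, smul_mulVec, dotProduct_add, dotProduct_smul,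
        smul_eq_mul, dot_bmat, dot_lin, hs, contr_smul, contr_vecMulVec,
        proj_of_dot_zero e hpy]
      have h1 := (hy v).1
      rw [(hexp v).2] at h1
      generalize pencilForm B v (proj e μ y) (proj e μ y) = g at *
      generalize pencilForm B v e (proj e μ y) = β at *
      generalize pencilForm B v e e = α at *
      generalize μ ⬝ᵥ y = τ at *
      have : 0 ≤ τ⁻¹ * (τ ^ 2 * α + 2 * τ * β + g) := mul_nonneg (by positivity) h1
      have e1 : τ⁻¹ * (τ ^ 2 * α + 2 * τ * β + g) = τ * α + 2 * β + τ⁻¹ * g := by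
        field_simp
      linarith

theorem cone_shadow_of_cover {e : Fin n → ℝ} (hS : ∀ i j, (B i j).IsSymm)
    (hB : ∀ i j, B j i = B i j) (hpd : (bmat B e e).PosDef) {r : ℕ} (μ : Fin r → Fin n → ℝ)
    (hμ : ∀ j, μ j ⬝ᵥ e = 1) (hcov : ∀ v, v ≠ 0 → ∃ j, InChart B (μ j) v) :
    IsHyperbolicPoly (pencilPoly B) e ∧
      IsSpectrahedralShadow (hyperbolicityCone (pencilPoly B) e) := by
  classical
  have hrr : RealRootedForms B e := by
    intro v x
    by_cases hv : v = 0
    · simp [hv, form_zero_vec]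
    obtain ⟨j, hj⟩ := hcov v hv
    have h := hj ((μ j ⬝ᵥ x) • e - x) (by simp [dotProduct_sub, dotProduct_smul, hμ j])
    rw [form_expand B hB] at h
    have hp := form_ee_pos B hpd hv
    generalize pencilForm B v e e = α at *
    generalize pencilForm B v e x = β at *
    generalize pencilForm B v x x = γ at *
    nlinarith [mul_nonpos_iff.mpr (Or.inl ⟨hp.le, h⟩), sq_nonneg ((μ j ⬝ᵥ x) * α - β)]
  refine ⟨isHyperbolic B hS hB hpd hrr, ?_⟩
  rw [cone_eq B hS hB hpd hrr]
  choose π hπ₁ hπ₂ using fun j => exists_nullProj B (μ j)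
  let act : Fin r → Prop := fun j => ∃ v, v ≠ 0 ∧ InChart B (μ j) v
  let F : ((Fin n → ℝ) × (Fin r × (Fin n ⊕ Fin n × Fin n) → ℝ)) → Fin r →
      Matrix ((Unit ⊕ Fin n) ⊕ Fin k) ((Unit ⊕ Fin n) ⊕ Fin k) ℝ := fun p j =>
    (if act j then (1 : ℝ) else 0) •
      chart B e (μ j) (π j) p.1 (fun i => p.2 (j, Sum.inl i)) (fun i => p.2 (j, Sum.inr i))
  let Φ : ((Fin n → ℝ) × (Fin r × (Fin n ⊕ Fin n × Fin n) → ℝ)) →ₗ[ℝ]
      Matrix (((Unit ⊕ Fin n) ⊕ Fin k) × Fin r) (((Unit ⊕ Fin n) ⊕ Fin k) × Fin r) ℝ :=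
    { toFun := fun p => blockDiagonal (F p)
      map_add' := fun p q => by
        rw [← blockDiagonal_add]
        congr 1
        funext j
        simp only [F, Prod.fst_add, Prod.snd_add, Pi.add_apply, ← smul_add]
        rw [← chart_add]
        rfl
      map_smul' := fun c p => by
        rw [RingHom.id_apply, ← blockDiagonal_smul]
        congr 1
        funext j
        simp only [F, Prod.smul_fst, Prod.smul_snd, Pi.smul_apply]
        rw [smul_comm c]
        congr 1
        rw [← chart_smul]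
        rfl }
  refine shadow_of_linearMap Φ (fun p => ?_) (fun y => ?_)
  · simp only [Φ, LinearMap.coe_mk, AddHom.coe_mk, Matrix.IsSymm, blockDiagonal_transpose]
    exact congrArg _ (funext fun j => ((chart_isSymm B hS _ _ _ _ _ _).smul _).eq)
  · simp only [Φ, LinearMap.coe_mk, AddHom.coe_mk, posSemidef_blockDiagonal_iff,
      Set.mem_ofPred_eq]
    constructor
    · intro hy
      have hex : ∀ j, ∃ z X, act j → (chart B e (μ j) (π j) y z X).PosSemidef := by
        intro j
        by_cases hj : act j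
        · obtain ⟨v, hv, hc⟩ := hj
          obtain ⟨z, X, h⟩ := chart_complete B hS hB (hμ j) (hπ₂ j) hc (form_ee_pos B hpd hv) hy
          exact ⟨z, X, fun _ => h⟩
        · exact ⟨0, 0, fun h => absurd h hj⟩
      choose z X hzX using hex
      refine ⟨fun p => Sum.elim (z p.1) (X p.1) p.2, fun j => ?_⟩
      by_cases hj : act j
      · simpa [F, hj] using hzX j hj
      · simpa [F, hj] using (PosSemidef.zero :
          (0 : Matrix ((Unit ⊕ Fin n) ⊕ Fin k) ((Unit ⊕ Fin n) ⊕ Fin k) ℝ).PosSemidef)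
    · rintro ⟨u, hu⟩ v
      by_cases hv : v = 0
      · simp [hv, form_zero_vec]
      obtain ⟨j, hj⟩ := hcov v hv
      have hact : act j := ⟨v, hv, hj⟩
      have := hu j
      simp only [F, hact, if_true, one_smul] at this
      exact chart_sound B hB (hμ j) (hπ₁ j) this hj (form_ee_pos B hpd hv).le

theorem cover_of_strict {e : Fin n → ℝ} (hB : ∀ i j, B j i = B i j)
    (hpd : (bmat B e e).PosDef)
    (hst : ∀ v x, v ≠ 0 → (∀ c : ℝ, x ≠ c • e) →
      pencilForm B v e e * pencilForm B v x x < pencilForm B v e x ^ 2) :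
    ∃ (r : ℕ) (μ : Fin r → Fin n → ℝ), (∀ j, μ j ⬝ᵥ e = 1) ∧
      ∀ v, v ≠ 0 → ∃ j, InChart B (μ j) v := by
  classical
  let m : (Fin k → ℝ) → Fin n → ℝ := fun w i =>
    pencilForm B w e (Pi.single i 1) / pencilForm B w e e
  have hm : ∀ w x, m w ⬝ᵥ x = pencilForm B w e x / pencilForm B w e e := by
    intro w x
    have hp : ∀ i, pencilForm B w e (Pi.single i 1) = (e ᵥ* gmat B w) i := fun i => by
      rw [pencilForm_eq_gmat, dotProduct_mulVec, dotProduct_single, mul_one]
    simp only [m, dotProduct, div_mul_eq_mul_div, ← Finset.sum_div, hp]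
    rw [pencilForm_eq_gmat, pencilForm_eq_gmat, dotProduct_mulVec, dotProduct_mulVec]
    rfl
  let S := Metric.sphere (0 : Fin k → ℝ) 1
  have hne : ∀ w ∈ S, w ≠ 0 := by
    intro u hu h; simp [S, h] at hu
  let U : (Fin k → ℝ) → Set (Fin k → ℝ) := fun w => {v | InChart B (m w) v}
  have hU : ∀ w ∈ S, U w ∈ nhds w := by
    intro w hw
    have hp := form_ee_pos B hpd (hne w hw)
    let K : Set (Fin n → ℝ) := Metric.sphere 0 1 ∩ {x | m w ⬝ᵥ x = 0}
    have hK : IsCompact K :=
      (isCompact_sphere _ _).inter_right (isClosed_eq (by fun_prop) continuous_const)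
    have hev : ∀ x ∈ K, ∀ᶠ q : (Fin k → ℝ) × (Fin n → ℝ) in nhds (w, x),
        pencilForm B q.1 q.2 q.2 < 0 := by
      rintro x ⟨hx1, hx2⟩
      have hx0 : pencilForm B w e x = 0 := by
        have hx3 : m w ⬝ᵥ x = 0 := hx2
        rw [hm, div_eq_zero_iff] at hx3
        exact hx3.resolve_right hp.ne'
      have hxe : ∀ c : ℝ, x ≠ c • e := by
        intro c hc
        rw [hc, form_smul_right, mul_eq_zero, or_iff_left hp.ne'] at hx0
        simp [hc, hx0] at hx1
      have h1 := hst w x (hne w hw) hxe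
      rw [hx0] at h1
      have hneg : pencilForm B w x x < 0 := by nlinarith
      have hc : Continuous fun q : (Fin k → ℝ) × (Fin n → ℝ) => pencilForm B q.1 q.2 q.2 :=
        (continuous_form B).comp (continuous_fst.prodMk (continuous_snd.prodMk continuous_snd))
      exact (hc.tendsto (w, x)).eventually (gt_mem_nhds hneg)
    filter_upwards [hK.eventually_forall_of_forall_eventually
      (P := fun v x => pencilForm B v x x < 0) hev] with v hv
    intro x hx
    by_cases hx0 : x = 0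
    · simp [hx0, pencilForm]
    · have hn : 0 < ‖x‖ := norm_pos_iff.mpr hx0
      have hmem : ‖x‖⁻¹ • x ∈ K :=
        ⟨by simp [norm_smul, hn.ne'], by simp [dotProduct_smul, hx]⟩
      have := hv _ hmem
      rw [form_smul_left, form_smul_right] at this
      by_contra hc
      nlinarith [mul_pos (mul_pos (inv_pos.mpr hn) (inv_pos.mpr hn)) (not_le.mp hc)]
  obtain ⟨t, htS, ht⟩ := (isCompact_sphere (0 : Fin k → ℝ) 1).elim_nhds_subcover U hU
  refine ⟨t.card, fun j => m (t.equivFin.symm j), fun j => ?_, fun v hv => ?_⟩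
  · rw [hm]
    exact div_self (form_ee_pos B hpd (hne _ (htS _ (t.equivFin.symm j).2))).ne'
  · have hn : 0 < ‖v‖ := norm_pos_iff.mpr hv
    have hs : ‖v‖⁻¹ • v ∈ S := by simp [S, norm_smul, hn.ne']
    obtain ⟨w, hw, hvw⟩ := Set.mem_iUnion₂.mp (ht hs)
    refine ⟨t.equivFin ⟨w, hw⟩, ?_⟩
    simp only [Equiv.symm_apply_apply]
    intro x hx
    have := hvw x hx
    rw [form_smul_vec] at this
    by_contra hc
    nlinarith [mul_pos (pow_pos (inv_pos.mpr hn) 2) (not_le.mp hc)]

end Vale.Agent.P256
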