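import Vale.Agent.P256.ComposeDefs
import Vale.Agent.P256.Garding
import Vale.Agent.P256.Lift

namespace Vale.Agent.P256

open Matrix Topology Filter

/-- Affine pencils give spectrahedral shadows. -/
lemma shadow_of_affine {n : ℕ} {ι κ : Type} [Fintype ι] [Fintype κ] (M₀ : Matrix κ κ ℝ)
    (hM₀ : M₀.IsSymm) (L : ((Fin n → ℝ) × (ι → ℝ)) →ₗ[ℝ] Matrix κ κ ℝ)
    (hL : ∀ p, (L p).IsSymm) {S : Set (Fin n → ℝ)}
    (hS : ∀ x, x ∈ S ↔ ∃ u, (M₀ + L (x, u)).PosSemidef) : IsSpectrahedralShadow S := by
  classical
  let eι := Fintype.equivFin ι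
  let eκ := Fintype.equivFin κ
  let red : Matrix κ κ ℝ → Matrix (Fin (Fintype.card κ)) (Fin (Fintype.card κ)) ℝ :=
    fun M => M.submatrix eκ.symm eκ.symm
  refine ⟨Fintype.card ι, Fintype.card κ, red M₀, fun i => red (L (Pi.single i 1, 0)),
    fun j => red (L (0, Pi.single (eι.symm j) 1)), hM₀.submatrix _, fun i => (hL _).submatrix _,
    fun j => (hL _).submatrix _, ?_⟩
  have hx : ∀ (x : Fin n → ℝ) (u : ι → ℝ),
      L (x, u) = ∑ i, x i • L (Pi.single i 1, 0) +
        ∑ j, u (eι.symm j) • L (0, Pi.single (eι.symm j) 1) := by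
    intro x u
    have h1 : x = ∑ i, x i • (Pi.single i 1 : Fin n → ℝ) := pi_eq_sum_univ' x
    have h2 : u = ∑ j, u j • (Pi.single j 1 : ι → ℝ) := pi_eq_sum_univ' u
    rw [Equiv.sum_comp eι.symm (fun j => u j • L (0, Pi.single j 1))]
    simp only [← map_smul, ← map_sum, ← map_add]
    congr 1
    refine Prod.ext ?_ ?_
    · simpa [Prod.fst_sum] using h1
    · simpa [Prod.snd_sum] using h2
  have hred : ∀ (x : Fin n → ℝ) (u : ι → ℝ), red (M₀ + L (x, u)) =
      red M₀ + ∑ i, x i • red (L (Pi.single i 1, 0)) +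
        ∑ j, u (eι.symm j) • red (L (0, Pi.single (eι.symm j) 1)) := by
    intro x u
    ext r s
    simp [red, hx x u, Matrix.sum_apply]
    ring
  ext x
  rw [hS]
  constructor
  · rintro ⟨u, hu⟩
    refine ⟨fun j => u (eι.symm j), ?_⟩
    rw [← hred x u]
    exact hu.submatrix _
  · rintro ⟨u, hu⟩
    refine ⟨fun i => u (eι i), (posSemidef_submatrix_equiv eκ.symm).mp ?_⟩
    have := hred x (fun i => u (eι i))
    simp only [red, Equiv.apply_symm_apply] at this
    rw [this]
    exact hu

variable {m n : ℕ} {F : MvPolynomial (Fin m) ℝ} {a : Fin m → ℝ} {d : ℕ}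

lemma cone_smul (hd : F.IsHomogeneous d) {c : ℝ} (hc : 0 < c) {v : Fin m → ℝ}
    (hv : v ∈ hyperbolicityCone F a) : c • v ∈ hyperbolicityCone F a := by
  intro t ht
  have h1 : t • a - c • v = c • ((t / c) • a - v) := by
    rw [smul_sub, smul_smul, mul_div_cancel₀ _ hc.ne']
  rw [h1, eval_smul_hom hd, mul_eq_zero] at ht
  have := hv (t / c) (ht.resolve_left (pow_ne_zero _ hc.ne'))
  exact (le_div_iff₀ hc).mp this |>.trans' (by simp)

lemma cone_add (hd : F.IsHomogeneous d) (hsh : IsSpectrahedralShadow (hyperbolicityCone F a))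
    {v w : Fin m → ℝ} (hv : v ∈ hyperbolicityCone F a) (hw : w ∈ hyperbolicityCone F a) :
    v + w ∈ hyperbolicityCone F a := by
  have hmid : (1 / 2 : ℝ) • v + (1 / 2 : ℝ) • w ∈ hyperbolicityCone F a := by
    obtain ⟨r, s, A₀, A, C, _, _, _, hS⟩ := hsh
    rw [hS] at hv hw ⊢
    obtain ⟨u, hu⟩ := hv
    obtain ⟨u', hu'⟩ := hw
    refine ⟨(1 / 2 : ℝ) • u + (1 / 2 : ℝ) • u', ?_⟩
    convert (hu.smul (by norm_num : (0 : ℝ) ≤ 1 / 2)).add
      (hu'.smul (by norm_num : (0 : ℝ) ≤ 1 / 2)) using 1
    ext i j
    simp [Matrix.sum_apply, add_mul, Finset.sum_add_distrib, Finset.mul_sum, mul_assoc]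
    ring
  have := cone_smul hd (c := 2) (by norm_num) hmid
  rwa [smul_add, smul_smul, smul_smul, show (2 : ℝ) * (1 / 2) = 1 by norm_num, one_smul,
    one_smul] at this

lemma cone_zero (hF : IsHyperbolicPoly F a) (hd : F.IsHomogeneous d) :
    (0 : Fin m → ℝ) ∈ hyperbolicityCone F a := by
  intro t ht
  rw [sub_zero, eval_smul_hom hd, mul_eq_zero] at ht
  exact (pow_eq_zero_iff'.mp (ht.resolve_right hF.2.1.ne')).1.ge

lemma cone_base (hF : IsHyperbolicPoly F a) (hd : F.IsHomogeneous d) :
    a ∈ hyperbolicityCone F a := by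
  intro t ht
  rw [show t • a - a = (t - 1) • a by rw [sub_smul, one_smul], eval_smul_hom hd, mul_eq_zero] at ht
  have := (pow_eq_zero_iff'.mp (ht.resolve_right hF.2.1.ne')).1
  linarith

lemma eval_ne_zero_of_strict (hd : F.IsHomogeneous d) {v : Fin m → ℝ}
    (hv : v ∈ hyperbolicityCone F a) {δ : ℝ} (hδ : 0 < δ) :
    MvPolynomial.eval (v + δ • a) F ≠ 0 := by
  intro h
  apply add_smul_strict (F := F) hv hδ (le_refl (0 : ℝ))
  rw [show (0 : ℝ) • a - (v + δ • a) = (-1 : ℝ) • (v + δ • a) by
      rw [zero_smul, zero_sub, neg_one_smul], eval_smul_hom hd, h, mul_zero]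

/-- The linear map attached to `b`. -/
def bvec (b : Fin n → Fin m → ℝ) (x : Fin n → ℝ) : Fin m → ℝ := ∑ i, x i • b i

/-- The bilinear map attached to `C`. -/
def qvec (C : Fin n → Fin n → Fin m → ℝ) (x y : Fin n → ℝ) : Fin m → ℝ :=
  ∑ i, ∑ j, (x i * y j) • C i j

lemma qvec_add_left (C : Fin n → Fin n → Fin m → ℝ) (x x' y : Fin n → ℝ) :
    qvec C (x + x') y = qvec C x y + qvec C x' y := by
  simp [qvec, add_mul, add_smul, Finset.sum_add_distrib]

lemma qvec_add_right (C : Fin n → Fin n → Fin m → ℝ) (x y y' : Fin n → ℝ) :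
    qvec C x (y + y') = qvec C x y + qvec C x y' := by
  simp [qvec, mul_add, add_smul, Finset.sum_add_distrib]

lemma qvec_smul_left (C : Fin n → Fin n → Fin m → ℝ) (c : ℝ) (x y : Fin n → ℝ) :
    qvec C (c • x) y = c • qvec C x y := by
  simp [qvec, Finset.smul_sum, smul_smul, mul_assoc]

lemma qvec_smul_right (C : Fin n → Fin n → Fin m → ℝ) (c : ℝ) (x y : Fin n → ℝ) :
    qvec C x (c • y) = c • qvec C x y := by
  simp [qvec, Finset.smul_sum, smul_smul, mul_left_comm]

lemma qvec_comm {C : Fin n → Fin n → Fin m → ℝ} (hC : ∀ i j, C j i = C i j) (x y : Fin n → ℝ) :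
    qvec C x y = qvec C y x := by
  unfold qvec
  rw [Finset.sum_comm]
  refine Finset.sum_congr rfl fun i _ => Finset.sum_congr rfl fun j _ => ?_
  rw [hC i j, mul_comm]

/-- The linearization of `x ↦ qvec C x x`. -/
def qlin (C : Fin n → Fin n → Fin m → ℝ) (M : Matrix (Fin n) (Fin n) ℝ) : Fin m → ℝ :=
  ∑ i, ∑ j, M i j • C i j

lemma qlin_add (C : Fin n → Fin n → Fin m → ℝ) (M N : Matrix (Fin n) (Fin n) ℝ) :
    qlin C (M + N) = qlin C M + qlin C N := by
  simp [qlin, add_smul, Finset.sum_add_distrib]

lemma qlin_smul (C : Fin n → Fin n → Fin m → ℝ) (c : ℝ) (M : Matrix (Fin n) (Fin n) ℝ) :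
    qlin C (c • M) = c • qlin C M := by
  simp [qlin, Finset.smul_sum, smul_smul]

lemma qlin_vecMulVec (C : Fin n → Fin n → Fin m → ℝ) (x y : Fin n → ℝ) :
    qlin C (vecMulVec x y) = qvec C x y := by
  simp [qlin, qvec, vecMulVec_apply]

lemma qlin_mem (hF : IsHyperbolicPoly F a) (hd : F.IsHomogeneous d)
    (hsh : IsSpectrahedralShadow (hyperbolicityCone F a)) {C : Fin n → Fin n → Fin m → ℝ}
    (hpos : ∀ x, qvec C x x ∈ hyperbolicityCone F a) {M : Matrix (Fin n) (Fin n) ℝ}
    (hM : M.PosSemidef) : qlin C M ∈ hyperbolicityCone F a := by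
  obtain ⟨r, w, rfl⟩ := posSemidef_iff_eq_sum_vecMulVec.mp hM
  induction (Finset.univ : Finset (Fin r)) using Finset.induction with
  | empty => simpa [qlin] using cone_zero hF hd
  | insert i s hi ih =>
    rw [Finset.sum_insert hi, qlin_add, star_trivial, qlin_vecMulVec]
    exact cone_add hd hsh (hpos _) ih

lemma eval_substPoly (F : MvPolynomial (Fin m) ℝ) (a : Fin m → ℝ) (b : Fin n → Fin m → ℝ)
    (C : Fin n → Fin n → Fin m → ℝ) (y : Fin (n + 1) → ℝ) :
    MvPolynomial.eval y (substPoly F a b C) = MvPolynomial.eval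
      (y 0 ^ 2 • a - (2 * y 0) • bvec b (Fin.tail y) - qvec C (Fin.tail y) (Fin.tail y)) F := by
  rw [substPoly, MvPolynomial.aeval_def, MvPolynomial.eval₂_comp_left (MvPolynomial.eval y)]
  have : (MvPolynomial.eval y).comp (algebraMap ℝ (MvPolynomial (Fin (n + 1)) ℝ)) =
      RingHom.id ℝ := by ext r; simp
  rw [this, MvPolynomial.eval₂_id]
  apply congrArg (fun f : Fin m → ℝ => MvPolynomial.eval f F)
  ext l
  simp [bvec, qvec, Fin.tail, Finset.mul_sum, mul_assoc, mul_comm, mul_left_comm]

theorem substPoly_hyperbolic (hF : IsHyperbolicPoly F a) (b : Fin n → Fin m → ℝ)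
    (C : Fin n → Fin n → Fin m → ℝ) (hpos : ∀ x, qvec C x x ∈ hyperbolicityCone F a) :
    IsHyperbolicPoly (substPoly F a b C) (firstAxis n) := by
  obtain ⟨d, hd⟩ := hF.1
  refine ⟨⟨2 * d, ?_⟩, ?_, ?_⟩
  · unfold substPoly
    refine MvPolynomial.IsHomogeneous.aeval (n := 2) hd _ fun l => ?_
    refine MvPolynomial.IsHomogeneous.sub (MvPolynomial.IsHomogeneous.sub ?_ ?_) ?_
    · exact (MvPolynomial.isHomogeneous_C (Fin (n + 1)) (a l)).mul
        (MvPolynomial.isHomogeneous_X_pow 0 2)
    · have h1 : MvPolynomial.IsHomogeneous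
          (∑ i : Fin n, MvPolynomial.C (b i l) * MvPolynomial.X i.succ :
            MvPolynomial (Fin (n + 1)) ℝ) 1 :=
        MvPolynomial.IsHomogeneous.sum _ _ _ fun i _ =>
          MvPolynomial.isHomogeneous_C_mul_X (b i l) i.succ
      exact ((MvPolynomial.isHomogeneous_C (Fin (n + 1)) (2 : ℝ)).mul
        (MvPolynomial.isHomogeneous_X ℝ 0)).mul h1
    · refine MvPolynomial.IsHomogeneous.sum _ _ _ fun i _ =>
        MvPolynomial.IsHomogeneous.sum _ _ _ fun j _ => ?_
      exact (MvPolynomial.isHomogeneous_C (Fin (n + 1)) (C i j l)).mul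
        ((MvPolynomial.isHomogeneous_X ℝ i.succ).mul (MvPolynomial.isHomogeneous_X ℝ j.succ))
  · rw [eval_substPoly]
    simpa [firstAxis, bvec, qvec] using hF.2.1
  · intro y z hz
    set w : ℂ := z - (y 0 : ℂ) with hw
    set x := Fin.tail y with hx
    have harg : MvPolynomial.aeval (w ^ 2 • cplx a + (2 * w) • cplx (bvec b x) -
        cplx (qvec C x x)) F = 0 := by
      rw [← hz, substPoly, ← AlgHom.comp_apply, MvPolynomial.comp_aeval]
      apply congrArg (fun f : Fin m → ℂ => MvPolynomial.aeval f F)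
      ext l
      simp [w, x, cplx, bvec, qvec, Fin.tail, firstAxis, Finset.mul_sum, mul_assoc, mul_comm,
        mul_left_comm]
    have hzw : z.im = w.im := by simp [w]
    rw [hzw]
    by_contra hne
    have hw0 : w ≠ 0 := fun h => hne (by simp [h])
    have hN : 0 < Complex.normSq w := Complex.normSq_pos.mpr hw0
    have hdec : w ^ 2 • cplx a + (2 * w) • cplx (bvec b x) - cplx (qvec C x x) =
        w • (cplx (w.re • a + 2 • bvec b x - (w.re / Complex.normSq w) • qvec C x x) +
          (Complex.I * (w.im : ℂ)) •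
            cplx (a + (Complex.normSq w)⁻¹ • qvec C x x)) := by
      ext l
      have hinv : w * (((w.re / Complex.normSq w : ℝ) : ℂ) -
          Complex.I * (w.im : ℂ) * (((Complex.normSq w)⁻¹ : ℝ) : ℂ)) = 1 := by
        have hc : (starRingEnd ℂ) w = (w.re : ℂ) - Complex.I * w.im := by
          apply Complex.ext <;> simp
        have hmul := Complex.mul_conj w
        rw [hc] at hmul
        have hNC : (Complex.normSq w : ℂ) ≠ 0 := by exact_mod_cast hN.ne'
        push_cast
        calc w * ((w.re : ℂ) / (Complex.normSq w : ℂ) -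
              Complex.I * (w.im : ℂ) * ((Complex.normSq w : ℂ))⁻¹)
            = w * ((w.re : ℂ) - Complex.I * w.im) * ((Complex.normSq w : ℂ))⁻¹ := by ring
          _ = 1 := by rw [hmul, mul_inv_cancel₀ hNC]
      simp [cplx]
      push_cast at hinv
      linear_combination ((qvec C x x l : ℝ) : ℂ) * hinv +
        (-(w * (a l : ℂ))) * (Complex.re_add_im w)
    rw [hdec, aeval_smul_hom hd, mul_eq_zero] at harg
    have h0 := harg.resolve_left (pow_ne_zero _ hw0)
    set U := w.re • a + 2 • bvec b x - (w.re / Complex.normSq w) • qvec C x x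
    rcases lt_or_gt_of_ne hne with hlt | hgt
    · apply tube_ne_zero hF hd (cone_smul hd (div_pos (neg_pos.mpr hlt) hN) (hpos x)) (-U)
        (neg_pos.mpr hlt)
      have : cplx (-U) + Complex.I • cplx ((-w.im) • a + (-w.im / Complex.normSq w) • qvec C x x) =
          (-1 : ℂ) • (cplx U + (Complex.I * (w.im : ℂ)) •
            cplx (a + (Complex.normSq w)⁻¹ • qvec C x x)) := by
        ext l; simp [cplx]; ring
      rw [this, aeval_smul_hom hd, h0, mul_zero]
    · apply tube_ne_zero hF hd (cone_smul hd (div_pos hgt hN) (hpos x)) U hgt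
      have : cplx U + Complex.I • cplx (w.im • a + (w.im / Complex.normSq w) • qvec C x x) =
          cplx U + (Complex.I * (w.im : ℂ)) •
            cplx (a + (Complex.normSq w)⁻¹ • qvec C x x) := by
        ext l; simp [cplx]; ring
      rw [this]; exact h0

/-- The rescaled value `s a - 2 b - s⁻¹ Φ`. -/
noncomputable def slope (a B Q : Fin m → ℝ) (s : ℝ) : Fin m → ℝ :=
  s • a - (2 : ℝ) • B - s⁻¹ • Q

lemma continuousAt_slope (a B Q : Fin m → ℝ) {s : ℝ} (hs : s ≠ 0) :
    ContinuousAt (slope a B Q) s :=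
  ((continuousAt_id.smul continuousAt_const).sub continuousAt_const).sub
    ((continuousAt_id.inv₀ hs).smul continuousAt_const)

lemma slope_mem_of_no_root (hF : IsHyperbolicPoly F a) (hd : F.IsHomogeneous d)
    (B Q : Fin m → ℝ) {c : ℝ} (hc : 0 ≤ c)
    (hno : ∀ s, c < s → MvPolynomial.eval (slope a B Q s) F ≠ 0) {s : ℝ} (hs : c < s) :
    slope a B Q s ∈ hyperbolicityCone F a := by
  let U : Set ℝ := {r | c < r ∧ slope a B Q r ∈ hyperbolicityCone F a}
  let V : Set ℝ := {r | c < r ∧ slope a B Q r ∉ hyperbolicityCone F a}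
  have hU : IsOpen U := by
    rw [isOpen_iff_mem_nhds]
    rintro r ⟨hr, hm⟩
    filter_upwards [lt_mem_nhds hr, (continuousAt_slope a B Q (by linarith : r ≠ 0)).eventually
      (cone_eventually hF hd hm (hno r hr))] with q h1 h2
    exact ⟨h1, h2⟩
  have hV : IsOpen V := by
    rw [isOpen_iff_mem_nhds]
    rintro r ⟨hr, hm⟩
    filter_upwards [lt_mem_nhds hr, (continuousAt_slope a B Q (by linarith : r ≠ 0)).eventually
      ((cone_closed hF hd).isOpen_compl.mem_nhds hm)] with q h1 h2
    exact ⟨h1, h2⟩
  have hne : (Set.Ioi c ∩ U).Nonempty := by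
    let g : ℝ → Fin m → ℝ := fun u => a - (2 * u) • B - (u * u) • Q
    have hg : ContinuousAt g 0 := by
      apply Continuous.continuousAt; fun_prop
    have hev : ∀ᶠ u in 𝓝 (0 : ℝ), g u ∈ hyperbolicityCone F a := by
      refine hg.eventually ?_
      simp only [g, mul_zero, zero_smul, sub_zero]
      exact cone_eventually hF hd (cone_base hF hd) hF.2.1.ne'
    obtain ⟨δ, hδ, hball⟩ := Metric.eventually_nhds_iff.mp hev
    let r := c + 1 + δ⁻¹
    have hr : c < r := by
      have : 0 < δ⁻¹ := inv_pos.mpr hδ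
      simp only [r]; linarith
    have hr0 : 0 < r := by linarith
    refine ⟨r, hr, hr, ?_⟩
    have hd' : dist r⁻¹ (0 : ℝ) < δ := by
      rw [Real.dist_eq, sub_zero, abs_of_pos (inv_pos.mpr hr0), inv_lt_comm₀ hr0 hδ]
      simp only [r]; linarith
    have he : slope a B Q r = r • g r⁻¹ := by
      ext l; simp [slope, g]; field_simp
    rw [he]
    exact cone_smul hd hr0 (hball hd')
  by_contra hsn
  obtain ⟨r, _, ⟨_, hru⟩, ⟨_, hrv⟩⟩ := isPreconnected_Ioi U V hU hV
    (fun r hr => (em (slope a B Q r ∈ hyperbolicityCone F a)).imp (fun h => ⟨hr, h⟩) fun h => ⟨hr, h⟩)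
    hne ⟨s, hs, hs, hsn⟩
  exact hrv hru

lemma mem_cone_substPoly (hd : F.IsHomogeneous d) (b : Fin n → Fin m → ℝ)
    (C : Fin n → Fin n → Fin m → ℝ) (y : Fin (n + 1) → ℝ) :
    y ∈ hyperbolicityCone (substPoly F a b C) (firstAxis n) ↔
      ∀ s : ℝ, MvPolynomial.eval (s ^ 2 • a - (2 * s) • bvec b (Fin.tail y) -
        qvec C (Fin.tail y) (Fin.tail y)) F = 0 → s ≤ y 0 := by
  have key : ∀ t : ℝ, MvPolynomial.eval (t • firstAxis n - y) (substPoly F a b C) =
      MvPolynomial.eval ((y 0 - t) ^ 2 • a - (2 * (y 0 - t)) • bvec b (Fin.tail y) -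
        qvec C (Fin.tail y) (Fin.tail y)) F := by
    intro t
    rw [eval_substPoly]
    have ht : Fin.tail (t • firstAxis n - y) = (-1 : ℝ) • Fin.tail y := by
      ext i; simp [Fin.tail, firstAxis]
    rw [ht, qvec_smul_left, qvec_smul_right]
    apply congrArg (fun f : Fin m → ℝ => MvPolynomial.eval f F)
    ext l
    simp [firstAxis, bvec, Finset.mul_sum]
    simp only [mul_assoc, ← Finset.mul_sum]
    ring
  constructor
  · intro h s hs
    have := h (y 0 - s) (by rw [key]; simpa using hs)
    linarith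
  · intro h t ht
    rw [key] at ht
    linarith [h _ ht]

/-- The directions on which the quadratic map is degenerate modulo the lineality space. -/
def linSpace (hF : IsHyperbolicPoly F a) (hd : F.IsHomogeneous d)
    (hsh : IsSpectrahedralShadow (hyperbolicityCone F a)) (C : Fin n → Fin n → Fin m → ℝ) :
    Submodule ℝ (Fin n → ℝ) where
  carrier := {z | ∀ w, qvec C z w ∈ hyperbolicityCone F a ∧ -qvec C z w ∈ hyperbolicityCone F a}
  add_mem' := by
    intro p q hp hq w
    rw [qvec_add_left, neg_add]
    exact ⟨cone_add hd hsh (hp w).1 (hq w).1, cone_add hd hsh (hp w).2 (hq w).2⟩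
  zero_mem' := by
    intro w
    simpa [qvec] using cone_zero hF hd
  smul_mem' := by
    intro c p hp w
    rw [qvec_smul_left]
    rcases lt_trichotomy c 0 with hc | hc | hc
    · exact ⟨by simpa using cone_smul hd (neg_pos.mpr hc) (hp w).2,
        by simpa using cone_smul hd (neg_pos.mpr hc) (hp w).1⟩
    · simp [hc, cone_zero hF hd]
    · exact ⟨cone_smul hd hc (hp w).1, by simpa using cone_smul hd hc (hp w).2⟩

theorem substPoly_shadow (hF : IsHyperbolicPoly F a)
    (hsh : IsSpectrahedralShadow (hyperbolicityCone F a)) (b : Fin n → Fin m → ℝ)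
    (C : Fin n → Fin n → Fin m → ℝ) (hC : ∀ i j, C j i = C i j)
    (hpos : ∀ x, qvec C x x ∈ hyperbolicityCone F a) :
    IsSpectrahedralShadow (hyperbolicityCone (substPoly F a b C) (firstAxis n)) := by
  classical
  obtain ⟨d, hd⟩ := hF.1
  by_cases hd0 : d = 0
  · refine shadow_of_linearMap (ι := Empty) (κ := Empty) 0 (fun _ => by simp) fun y => ?_
    refine ⟨fun _ => ⟨0, by simpa using PosSemidef.zero⟩, fun _ => ?_⟩
    rw [mem_cone_substPoly hd]
    intro s hs
    exfalso
    have hconst : ∀ v, MvPolynomial.eval v F = MvPolynomial.eval 0 F := fun v => by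
      have := eval_smul_hom hd 0 v
      simpa [hd0] using this.symm
    have := hF.2.1
    rw [hconst] at hs this
    linarith
  set N := linSpace hF hd hsh C with hN
  obtain ⟨f, hf⟩ := LinearMap.exists_extend (LinearMap.id : N →ₗ[ℝ] N)
  let π : (Fin n → ℝ) →ₗ[ℝ] (Fin n → ℝ) := N.subtype.comp f
  have hπ₁ : ∀ z, π z ∈ N := fun z => (f z).2
  have hπ₂ : ∀ z ∈ N, π z = z := fun z hz =>
    congrArg Subtype.val (LinearMap.congr_fun hf ⟨z, hz⟩)
  have hscale : ∀ (y : Fin (n + 1) → ℝ) (s : ℝ), s ≠ 0 →
      s ^ 2 • a - (2 * s) • bvec b (Fin.tail y) - qvec C (Fin.tail y) (Fin.tail y) =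
        s • slope a (bvec b (Fin.tail y)) (qvec C (Fin.tail y) (Fin.tail y)) s := by
    intro y s hs; ext l; simp [slope]; field_simp
  have hroot : ∀ (y : Fin (n + 1) → ℝ) (s : ℝ), s ≠ 0 →
      (MvPolynomial.eval (s ^ 2 • a - (2 * s) • bvec b (Fin.tail y) -
          qvec C (Fin.tail y) (Fin.tail y)) F = 0 ↔
        MvPolynomial.eval (slope a (bvec b (Fin.tail y))
          (qvec C (Fin.tail y) (Fin.tail y)) s) F = 0) := by
    intro y s hs
    rw [hscale y s hs, eval_smul_hom hd, mul_eq_zero]
    exact or_iff_right (pow_ne_zero _ hs)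
  -- the reformulation of membership in the cone
  have main : ∀ y : Fin (n + 1) → ℝ,
      y ∈ hyperbolicityCone (substPoly F a b C) (firstAxis n) ↔
      ∃ (z : Fin n → ℝ) (X : Fin n × Fin n → ℝ),
        (border (y 0) (Fin.tail y - π z) (symVar X)).PosSemidef ∧
        y 0 • a - (2 : ℝ) • bvec b (Fin.tail y) - qlin C (symVar X) ∈
          hyperbolicityCone F a := by
    intro y
    rw [mem_cone_substPoly hd]
    set τ := y 0 with hτdef
    set x := Fin.tail y with hxdef
    set B := bvec b x with hBdef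
    set Q := qvec C x x with hQdef
    constructor
    · intro h
      have hτ : 0 ≤ τ := by
        by_contra hneg
        push Not at hneg
        have hno : ∀ s, 0 < s → MvPolynomial.eval (slope a B Q s) F ≠ 0 := fun s hs he => by
          have := h s ((hroot y s hs.ne').mpr he); linarith
        have hQne : MvPolynomial.eval (-Q) F ≠ 0 := fun he => by
          have := h 0 (by simpa [Q] using he); linarith
        have hlim : -Q ∈ hyperbolicityCone F a := by
          have ht : Tendsto (fun s : ℝ => s ^ 2 • a - (2 * s) • B - Q) (𝓝[>] 0) (𝓝 (-Q)) := by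
            have hc : Continuous fun s : ℝ => s ^ 2 • a - (2 * s) • B - Q := by fun_prop
            simpa using (hc.tendsto 0).mono_left nhdsWithin_le_nhds
          refine (cone_closed hF hd).mem_of_tendsto ht ?_
          filter_upwards [self_mem_nhdsWithin] with s hs
          have hs' : (0 : ℝ) < s := hs
          rw [hscale y s hs'.ne']
          exact cone_smul hd hs' (slope_mem_of_no_root hF hd B Q le_rfl hno hs')
        obtain ⟨δ, hδ, hball⟩ : ∃ δ : ℝ, 0 < δ ∧ -Q - δ • a ∈ hyperbolicityCone F a := by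
          have hc : Continuous fun δ : ℝ => -Q - δ • a := by fun_prop
          have := (hc.tendsto 0).eventually (p := fun v => v ∈ hyperbolicityCone F a)
            (by simpa using cone_eventually hF hd hlim hQne)
          obtain ⟨η, hη, hb⟩ := Metric.eventually_nhds_iff.mp this
          exact ⟨η / 2, half_pos hη, hb (by
            rw [Real.dist_eq, sub_zero, abs_of_pos (half_pos hη)]; linarith)⟩
        have hneg' := cone_add hd hsh hball (hpos x)
        rw [show -Q - δ • a + qvec C x x = (-δ) • a by simp only [Q, neg_smul]; abel] at hneg'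
        have := hneg' (-δ) (by
          rw [sub_self, show (0 : Fin m → ℝ) = (0 : ℝ) • a by simp, eval_smul_hom hd]
          simp [hd0])
        linarith
      have hno : ∀ s, τ < s → MvPolynomial.eval (slope a B Q s) F ≠ 0 := fun s hs he => by
        have := h s ((hroot y s (by linarith)).mpr he); linarith
      have hmem : ∀ s, τ < s → slope a B Q s ∈ hyperbolicityCone F a := fun s hs =>
        slope_mem_of_no_root hF hd B Q hτ hno hs
      rcases hτ.eq_or_lt with h0 | hpos'
      · have hnegQ : -Q ∈ hyperbolicityCone F a := by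
          have ht : Tendsto (fun s : ℝ => s ^ 2 • a - (2 * s) • B - Q) (𝓝[>] 0) (𝓝 (-Q)) := by
            have hc : Continuous fun s : ℝ => s ^ 2 • a - (2 * s) • B - Q := by fun_prop
            simpa using (hc.tendsto 0).mono_left nhdsWithin_le_nhds
          refine (cone_closed hF hd).mem_of_tendsto ht ?_
          filter_upwards [self_mem_nhdsWithin] with s hs
          have hs' : (0 : ℝ) < s := hs
          rw [hscale y s hs'.ne']
          exact cone_smul hd hs' (hmem s (by linarith))
        have hB2 : -((2 : ℝ) • B) ∈ hyperbolicityCone F a := by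
          have ht : Tendsto (fun s : ℝ => s • a - (2 : ℝ) • B) (𝓝[>] 0)
              (𝓝 (-((2 : ℝ) • B))) := by
            have hc : Continuous fun s : ℝ => s • a - (2 : ℝ) • B := by fun_prop
            simpa using (hc.tendsto 0).mono_left nhdsWithin_le_nhds
          refine (cone_closed hF hd).mem_of_tendsto ht ?_
          filter_upwards [self_mem_nhdsWithin] with s hs
          have hs' : (0 : ℝ) < s := hs
          have := cone_add hd hsh (hmem s (by linarith))
            (cone_smul hd (inv_pos.mpr hs') (hpos x))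
          simpa [slope, Q] using this
        have hxN : x ∈ N := by
          intro w
          have hr : ∀ r : ℝ, (2 * r) • qvec C x w + (r * r) • qvec C w w ∈
              hyperbolicityCone F a := by
            intro r
            have h1 := cone_add hd hsh (hpos (x + r • w)) hnegQ
            convert h1 using 1
            simp only [qvec_add_left, qvec_add_right, qvec_smul_left, qvec_smul_right,
              qvec_comm hC w x, Q, smul_smul]
            module
          have hc : Continuous fun r : ℝ => (2 : ℝ) • qvec C x w + r • qvec C w w := by fun_prop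
          have hc' : Continuous fun r : ℝ => -((2 : ℝ) • qvec C x w) + r • qvec C w w := by
            fun_prop
          have l1 : (2 : ℝ) • qvec C x w ∈ hyperbolicityCone F a := by
            refine (cone_closed hF hd).mem_of_tendsto (b := 𝓝[>] (0 : ℝ))
              (f := fun r : ℝ => (2 : ℝ) • qvec C x w + r • qvec C w w) ?_ ?_
            · simpa using (hc.tendsto 0).mono_left nhdsWithin_le_nhds
            · filter_upwards [self_mem_nhdsWithin] with r hr'
              have hr0 : (0 : ℝ) < r := hr'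
              convert cone_smul hd (inv_pos.mpr hr0) (hr r) using 1
              rw [smul_add, smul_smul, smul_smul]
              field_simp
          have l2 : -((2 : ℝ) • qvec C x w) ∈ hyperbolicityCone F a := by
            refine (cone_closed hF hd).mem_of_tendsto (b := 𝓝[>] (0 : ℝ))
              (f := fun r : ℝ => -((2 : ℝ) • qvec C x w) + r • qvec C w w) ?_ ?_
            · simpa using (hc'.tendsto 0).mono_left nhdsWithin_le_nhds
            · filter_upwards [self_mem_nhdsWithin] with r hr'
              have hr0 : (0 : ℝ) < r := hr'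
              convert cone_smul hd (inv_pos.mpr hr0) (hr (-r)) using 1
              rw [smul_add, smul_smul, smul_smul, ← neg_smul]
              field_simp
          have h3 := cone_smul hd (show (0 : ℝ) < 1 / 2 by norm_num) l1
          have h4 := cone_smul hd (show (0 : ℝ) < 1 / 2 by norm_num) l2
          rw [smul_smul, show (1 / 2 : ℝ) * 2 = 1 by norm_num, one_smul] at h3
          rw [smul_neg, smul_smul, show (1 / 2 : ℝ) * 2 = 1 by norm_num, one_smul] at h4
          exact ⟨h3, h4⟩
        have hz : symVar (0 : Fin n × Fin n → ℝ) = 0 := by ext; simp [symVar]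
        refine ⟨x, 0, ?_, ?_⟩
        · rw [hπ₂ x hxN, sub_self, hz, ← h0]; exact border_zero
        · rw [hz, ← h0]; simpa [qlin] using hB2
      · have hv : slope a B Q τ ∈ hyperbolicityCone F a := by
          refine (cone_closed hF hd).mem_of_tendsto (b := 𝓝[>] τ)
            ((continuousAt_slope a B Q hpos'.ne').tendsto.mono_left nhdsWithin_le_nhds) ?_
          filter_upwards [self_mem_nhdsWithin] with s hs using hmem s hs
        refine ⟨0, fun p => τ⁻¹ * x p.1 * x p.2 / 2, ?_⟩
        have hs : symVar (fun p : Fin n × Fin n => τ⁻¹ * x p.1 * x p.2 / 2) =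
            τ⁻¹ • vecMulVec x x := by
          ext i j; simp [symVar, vecMulVec_apply]; ring
        rw [map_zero, sub_zero, hs, qlin_smul, qlin_vecMulVec]
        exact ⟨border_posSemidef_of_pos hpos' x, hv⟩
    · rintro ⟨z, X, hb, hS⟩ s hs
      by_contra hlt
      push Not at hlt
      obtain ⟨hτ, hz, hp⟩ := border_posSemidef_imp hb
      have hspos : 0 < s := lt_of_le_of_lt hτ hlt
      have hs' := (hroot y s hspos.ne').mp hs
      have hmz : π z ∈ N := hπ₁ z
      rcases hτ.eq_or_lt with h0 | hpos'
      · obtain ⟨hu, hM⟩ := hz h0.symm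
        have hxz : x = π z := sub_eq_zero.mp hu
        have hnq : -Q ∈ hyperbolicityCone F a := by
          have := (hmz x).2
          rwa [← hxz] at this
        have hB : -((2 : ℝ) • B) ∈ hyperbolicityCone F a := by
          have h1 := cone_add hd hsh hS (qlin_mem hF hd hsh hpos hM)
          rw [← h0] at h1
          simpa using h1
        have h2 := eval_ne_zero_of_strict (a := a) hd
          (cone_add hd hsh hB (cone_smul hd (inv_pos.mpr hspos) hnq)) hspos
        apply h2
        convert hs' using 3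
        simp only [slope, smul_neg]; abel
      · set u := x - π z with hu
        have hD := qlin_mem hF hd hsh hpos (hp hpos')
        rw [sub_eq_add_neg, qlin_add, ← neg_smul, qlin_smul, qlin_vecMulVec] at hD
        have hlin : qvec C u u - Q ∈ hyperbolicityCone F a := by
          have hd2 : qvec C u u - Q = -qvec C (π z) (x + u) := by
            have hxu : x = π z + u := by simp [u]
            simp only [Q]
            conv_lhs => rw [hxu]
            simp only [qvec_add_left, qvec_add_right, qvec_comm hC u (π z)]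
            conv_rhs => rw [hxu]
            simp only [qvec_add_right]
            abel
          rw [hd2]; exact (hmz (x + u)).2
        have hv : slope a B Q τ ∈ hyperbolicityCone F a := by
          have h1 := cone_add hd hsh (cone_add hd hsh hS hD)
            (cone_smul hd (inv_pos.mpr hpos') hlin)
          convert h1 using 1
          simp only [slope, B, smul_sub, neg_smul]
          abel
        have hgap : slope a B Q s - (s - τ) • a ∈ hyperbolicityCone F a := by
          have hc : 0 < τ⁻¹ - s⁻¹ := sub_pos.mpr (inv_strictAnti₀ hpos' hlt)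
          have h1 := cone_add hd hsh hv (cone_smul hd hc (hpos x))
          convert h1 using 1
          simp only [slope, Q]; module
        apply eval_ne_zero_of_strict (a := a) hd hgap (sub_pos.mpr hlt)
        rwa [sub_add_cancel]
  -- the pencil
  obtain ⟨r, q, A₀, A, D, hA₀, hA, hD, hK⟩ := hsh
  let core : (Fin (n + 1) → ℝ) → (Fin n × Fin n → ℝ) → Fin m → ℝ := fun y X =>
    y 0 • a - (2 : ℝ) • bvec b (Fin.tail y) - qlin C (symVar X)
  let blk : ((Fin (n + 1) → ℝ) × ((Fin n ⊕ Fin n × Fin n) ⊕ Fin r → ℝ)) →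
      Matrix ((Unit ⊕ Fin n) ⊕ Fin q) ((Unit ⊕ Fin n) ⊕ Fin q) ℝ := fun p =>
    fromBlocks (border (p.1 0) (Fin.tail p.1 - π fun i => p.2 (Sum.inl (Sum.inl i)))
      (symVar fun i => p.2 (Sum.inl (Sum.inr i)))) 0 0
      (∑ i, core p.1 (fun j => p.2 (Sum.inl (Sum.inr j))) i • A i +
        ∑ j, p.2 (Sum.inr j) • D j)
  have hsym : ∀ X X' : Fin n × Fin n → ℝ, symVar (X + X') = symVar X + symVar X' := fun X X' => by
    ext; simp [symVar]; ring
  have hsym' : ∀ (c : ℝ) (X : Fin n × Fin n → ℝ), symVar (c • X) = c • symVar X := fun c X => by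
    ext; simp [symVar]; ring
  have hbv : ∀ x x' : Fin n → ℝ, bvec b (x + x') = bvec b x + bvec b x' := fun x x' => by
    simp [bvec, add_smul, Finset.sum_add_distrib]
  have hbv' : ∀ (c : ℝ) (x : Fin n → ℝ), bvec b (c • x) = c • bvec b x := fun c x => by
    simp [bvec, Finset.smul_sum, smul_smul]
  have hcore : ∀ y y' X X', core (y + y') (X + X') = core y X + core y' X' := by
    intro y y' X X'
    simp only [core, hsym, qlin_add, show Fin.tail (y + y') = Fin.tail y + Fin.tail y' from rfl,
      hbv, Pi.add_apply]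
    module
  have hcore' : ∀ (c : ℝ) y X, core (c • y) (c • X) = c • core y X := by
    intro c y X
    simp only [core, hsym', qlin_smul, show Fin.tail (c • y) = c • Fin.tail y from rfl,
      hbv', Pi.smul_apply, smul_eq_mul]
    module
  let L : ((Fin (n + 1) → ℝ) × ((Fin n ⊕ Fin n × Fin n) ⊕ Fin r → ℝ)) →ₗ[ℝ]
      Matrix ((Unit ⊕ Fin n) ⊕ Fin q) ((Unit ⊕ Fin n) ⊕ Fin q) ℝ :=
    { toFun := blk
      map_add' := fun p p' => by
        simp only [blk, fromBlocks_add, add_zero]
        congr 1
        · rw [← border_add, ← hsym, Prod.fst_add, Prod.snd_add]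
          congr 1
          rw [show (fun i => (p.2 + p'.2) (Sum.inl (Sum.inl i))) =
              (fun i => p.2 (Sum.inl (Sum.inl i))) + fun i => p'.2 (Sum.inl (Sum.inl i)) from rfl,
            map_add, show Fin.tail (p.1 + p'.1) = Fin.tail p.1 + Fin.tail p'.1 from rfl]
          abel
        · have : core (p + p').1 (fun j => (p + p').2 (Sum.inl (Sum.inr j))) =
              core p.1 (fun j => p.2 (Sum.inl (Sum.inr j))) +
                core p'.1 (fun j => p'.2 (Sum.inl (Sum.inr j))) := hcore _ _ _ _
          rw [this]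
          simp only [Pi.add_apply, Prod.snd_add, add_smul, Finset.sum_add_distrib]
          abel
      map_smul' := fun c p => by
        simp only [blk, RingHom.id_apply, fromBlocks_smul, smul_zero]
        congr 1
        · rw [← border_smul, ← hsym', Prod.smul_fst, Prod.smul_snd]
          congr 1
          rw [show (fun i => (c • p.2) (Sum.inl (Sum.inl i))) =
              c • fun i => p.2 (Sum.inl (Sum.inl i)) from rfl,
            map_smul, show Fin.tail (c • p.1) = c • Fin.tail p.1 from rfl, smul_sub]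
        · have : core (c • p).1 (fun j => (c • p).2 (Sum.inl (Sum.inr j))) =
              c • core p.1 (fun j => p.2 (Sum.inl (Sum.inr j))) := hcore' _ _ _
          rw [this]
          simp only [Pi.smul_apply, Prod.smul_snd, smul_eq_mul, smul_add, Finset.smul_sum,
            smul_smul] }
  refine shadow_of_affine (fromBlocks (0 : Matrix (Unit ⊕ Fin n) (Unit ⊕ Fin n) ℝ) 0 0 A₀) ?_ L
    (fun p => ?_) fun y => ?_
  · exact Matrix.IsSymm.fromBlocks (by simp) (by simp) hA₀
  · refine Matrix.IsSymm.fromBlocks ?_ (by simp) ?_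
    · refine Matrix.IsSymm.fromBlocks ?_ ?_ ?_
      · ext; simp
      · ext; simp
      · ext; simp [symVar]; ring
    · simp only [Matrix.IsSymm, transpose_add, transpose_sum, transpose_smul, (hA _).eq,
        (hD _).eq]
  rw [main y]
  constructor
  · rintro ⟨z, X, h1, h2⟩
    rw [hK] at h2
    obtain ⟨u, hu⟩ := h2
    refine ⟨Sum.elim (Sum.elim z X) u, ?_⟩
    simp only [L, blk, LinearMap.coe_mk, AddHom.coe_mk, fromBlocks_add, zero_add,
      posSemidef_fromBlocks_iff, Sum.elim_inl, Sum.elim_inr, ← add_assoc]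
    exact ⟨h1, hu⟩
  · rintro ⟨u, hu⟩
    simp only [L, blk, LinearMap.coe_mk, AddHom.coe_mk, fromBlocks_add, zero_add,
      posSemidef_fromBlocks_iff, ← add_assoc] at hu
    refine ⟨fun i => u (Sum.inl (Sum.inl i)), fun j => u (Sum.inl (Sum.inr j)), hu.1, ?_⟩
    rw [hK]
    exact ⟨fun j => u (Sum.inr j), hu.2⟩

end Vale.Agent.P256
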