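import Vale.Agent.P256.Defs

namespace Vale.Agent.P256

/-- The polynomial `(X₀, x) ↦ F (X₀² a - 2 X₀ ∑ i, x i • b i - ∑ i j, (x i * x j) • C i j)`. -/
noncomputable def substPoly {m n : ℕ} (F : MvPolynomial (Fin m) ℝ) (a : Fin m → ℝ)
    (b : Fin n → Fin m → ℝ) (C : Fin n → Fin n → Fin m → ℝ) :
    MvPolynomial (Fin (n + 1)) ℝ :=
  MvPolynomial.aeval (fun l : Fin m =>
    MvPolynomial.C (a l) * MvPolynomial.X 0 ^ 2 -
      MvPolynomial.C 2 * MvPolynomial.X 0 *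
        (∑ i, MvPolynomial.C (b i l) * MvPolynomial.X i.succ) -
      ∑ i, ∑ j, MvPolynomial.C (C i j l) * (MvPolynomial.X i.succ * MvPolynomial.X j.succ)) F

/-- The direction `(1, 0, …, 0)`. -/
def firstAxis (n : ℕ) : Fin (n + 1) → ℝ := Fin.cons 1 0

end Vale.Agent.P256
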