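import Mathlib

/-!
Definitions for P256: hyperbolicity, hyperbolicity cones, spectrahedral shadows and the
determinant of a quadratic matrix pencil.
-/

namespace Vale.Agent.P256

open Matrix

/-- `p` is homogeneous, `p e > 0`, and for every real `x` every complex root of
`t ↦ p (t e - x)` is real. -/
def IsHyperbolicPoly {n : ℕ} (p : MvPolynomial (Fin n) ℝ) (e : Fin n → ℝ) : Prop :=
  (∃ d : ℕ, p.IsHomogeneous d) ∧ 0 < MvPolynomial.eval e p ∧
    ∀ (x : Fin n → ℝ) (z : ℂ),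
      MvPolynomial.aeval (fun i => z * (e i : ℂ) - (x i : ℂ)) p = 0 → z.im = 0

/-- The set of `x` all of whose roots of `t ↦ p (t e - x)` are nonnegative (the roots are real
whenever `p` is hyperbolic with respect to `e`). -/
def hyperbolicityCone {n : ℕ} (p : MvPolynomial (Fin n) ℝ) (e : Fin n → ℝ) : Set (Fin n → ℝ) :=
  {x | ∀ t : ℝ, MvPolynomial.eval (t • e - x) p = 0 → 0 ≤ t}

/-- A linear image of a spectrahedron. -/
def IsSpectrahedralShadow {n : ℕ} (S : Set (Fin n → ℝ)) : Prop :=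
  ∃ (a m : ℕ) (A₀ : Matrix (Fin m) (Fin m) ℝ) (A : Fin n → Matrix (Fin m) (Fin m) ℝ)
    (C : Fin a → Matrix (Fin m) (Fin m) ℝ),
    A₀.IsSymm ∧ (∀ i, (A i).IsSymm) ∧ (∀ j, (C j).IsSymm) ∧
      S = {x | ∃ u : Fin a → ℝ, (A₀ + ∑ i, x i • A i + ∑ j, u j • C j).PosSemidef}

/-- The polynomial `det (∑ i, ∑ j, X i * X j * B i j)`. -/
noncomputable def pencilPoly {n k : ℕ} (B : Fin n → Fin n → Matrix (Fin k) (Fin k) ℝ) :
    MvPolynomial (Fin n) ℝ :=
  (Matrix.of fun r s =>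
    ∑ i, ∑ j, MvPolynomial.C (B i j r s) * (MvPolynomial.X i * MvPolynomial.X j)).det

/-- The scalar bilinear form `(x, y) ↦ vᵀ (∑ i, ∑ j, x i * y j * B i j) v`. -/
def pencilForm {n k : ℕ} (B : Fin n → Fin n → Matrix (Fin k) (Fin k) ℝ)
    (v : Fin k → ℝ) (x y : Fin n → ℝ) : ℝ :=
  ∑ i, ∑ j, x i * y j * (v ⬝ᵥ (B i j *ᵥ v))

end Vale.Agent.P256
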