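import Vale.Agent.P256.Basic

namespace Vale.Agent.P256

open Matrix

variable {n k : ℕ} (B : Fin n → Fin n → Matrix (Fin k) (Fin k) ℝ)

/-- Every scalar form of the pencil has real roots on lines of direction `e`. -/
def RealRootedForms (e : Fin n → ℝ) : Prop :=
  ∀ (v : Fin k → ℝ) (x : Fin n → ℝ),
    pencilForm B v e e * pencilForm B v x x ≤ pencilForm B v e x ^ 2

lemma eval_pencilPoly (x : Fin n → ℝ) :
    MvPolynomial.eval x (pencilPoly B) = (bmat B x x).det := by
  rw [pencilPoly, RingHom.map_det]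
  congr 1
  ext r s
  simp [bmat, Matrix.sum_apply, mul_comm]

lemma aeval_pencilPoly (w : Fin n → ℂ) :
    MvPolynomial.aeval w (pencilPoly B) =
      (∑ i, ∑ j, (w i * w j) • (B i j).map (fun r : ℝ => (r : ℂ))).det := by
  rw [pencilPoly, AlgHom.map_det]
  congr 1
  ext r s
  simp [Matrix.sum_apply, mul_comm]

lemma pencilPoly_isHomogeneous : (pencilPoly B).IsHomogeneous (2 * k) := by
  rw [pencilPoly, Matrix.det_apply]
  refine MvPolynomial.IsHomogeneous.sum _ _ _ fun σ _ => ?_
  have hp : (∏ r, (Matrix.of fun (r : Fin k) (s : Fin k) =>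
      (∑ i, ∑ j, MvPolynomial.C (B i j r s) * (MvPolynomial.X i * MvPolynomial.X j) :
        MvPolynomial (Fin n) ℝ))
        (σ r) r).IsHomogeneous (∑ _r : Fin k, 2) := by
    refine MvPolynomial.IsHomogeneous.prod _ _ _ fun r _ => ?_
    simp only [Matrix.of_apply]
    refine MvPolynomial.IsHomogeneous.sum _ _ _ fun i _ => ?_
    refine MvPolynomial.IsHomogeneous.sum _ _ _ fun j _ => ?_
    simpa using (MvPolynomial.isHomogeneous_C (Fin n) (B i j (σ r) r)).mul
      ((MvPolynomial.isHomogeneous_X ℝ i).mul (MvPolynomial.isHomogeneous_X ℝ j))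
  have hs : (∑ _r : Fin k, 2) = 2 * k := by simp [mul_comm]
  rw [hs] at hp
  rcases Int.units_eq_one_or (Equiv.Perm.sign σ) with h | h <;> rw [h]
  · simpa using hp
  · simpa using hp.neg

lemma star_dot_real (S : Matrix (Fin k) (Fin k) ℝ) (hS : S.IsSymm) (w : Fin k → ℂ) :
    star w ⬝ᵥ (S.map (fun r : ℝ => (r : ℂ)) *ᵥ w) =
      (((fun i => (w i).re) ⬝ᵥ (S *ᵥ fun i => (w i).re) +
        (fun i => (w i).im) ⬝ᵥ (S *ᵥ fun i => (w i).im) : ℝ) : ℂ) := by
  apply Complex.ext
  · simp [dotProduct, mulVec, Finset.mul_sum, ← Finset.sum_add_distrib]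
  · have h : ∀ i j, S i j = S j i := fun i j => (hS.apply i j).symm
    have hc : ∑ i, ∑ j, (w i).re * (S i j * (w j).im) = ∑ i, ∑ j, (w i).im * (S i j * (w j).re) := by
      rw [Finset.sum_comm]
      refine Finset.sum_congr rfl fun i _ => Finset.sum_congr rfl fun j _ => ?_
      rw [h j i]; ring
    simp [dotProduct, mulVec, Finset.mul_sum, Finset.sum_add_distrib, hc]

lemma pair_real_rooted {e : Fin n → ℝ} (hpd : (bmat B e e).PosDef)
    (hrr : RealRootedForms B e) (a b : Fin k → ℝ) (x : Fin n → ℝ) :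
    (pencilForm B a e e + pencilForm B b e e) * (pencilForm B a x x + pencilForm B b x x) ≤
      (pencilForm B a e x + pencilForm B b e x) ^ 2 := by
  let a' : ℝ → Fin k → ℝ := fun θ => Real.cos θ • a + Real.sin θ • b
  let b' : ℝ → Fin k → ℝ := fun θ => (-Real.sin θ) • a + Real.cos θ • b
  have inv : ∀ θ (y z : Fin n → ℝ),
      pencilForm B (a' θ) y z + pencilForm B (b' θ) y z =
        pencilForm B a y z + pencilForm B b y z := by
    intro θ y z
    simp only [a', b', ← dot_bmat, mulVec_add, mulVec_smul, dotProduct_add, add_dotProduct,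
      dotProduct_smul, smul_dotProduct, smul_eq_mul]
    have := Real.sin_sq_add_cos_sq θ
    linear_combination
      (a ⬝ᵥ (bmat B y z *ᵥ a) + b ⬝ᵥ (bmat B y z *ᵥ b)) * this
  let d : ℝ → ℝ := fun θ => pencilForm B (a' θ) e x * pencilForm B (b' θ) e e -
    pencilForm B (b' θ) e x * pencilForm B (a' θ) e e
  have cf : ∀ (c : ℝ → Fin k → ℝ) (y z : Fin n → ℝ), Continuous c →
      Continuous fun θ => pencilForm B (c θ) y z := fun c y z hc =>
    (continuous_form B).comp (hc.prodMk (continuous_const (y := (y, z))))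
  have ca : Continuous a' := by fun_prop
  have cb : Continuous b' := by fun_prop
  have hd : Continuous d :=
    ((cf a' e x ca).mul (cf b' e e cb)).sub ((cf b' e x cb).mul (cf a' e e ca))
  have hneg : d (Real.pi / 2) = -d 0 := by
    have hn : ∀ y z, pencilForm B (-a) y z = pencilForm B a y z := fun y z => by
      simpa using form_smul_vec B (-1) a y z
    simp [d, a', b', hn]
  have h0 : (0 : ℝ) ∈ Set.uIcc (d 0) (d (Real.pi / 2)) := by
    rw [hneg, Set.mem_uIcc]
    rcases le_total (d 0) 0 with h | h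
    · left; constructor <;> linarith
    · right; constructor <;> linarith
  obtain ⟨θ, _, hθ⟩ := intermediate_value_uIcc hd.continuousOn h0
  rw [← inv θ e e, ← inv θ x x, ← inv θ e x]
  have h1 := hrr (a' θ) x
  have h2 := hrr (b' θ) x
  have heq : pencilForm B (a' θ) e x * pencilForm B (b' θ) e e =
      pencilForm B (b' θ) e x * pencilForm B (a' θ) e e := by
    simp only [d] at hθ; linarith
  by_cases ha : a' θ = 0
  · simp only [ha, form_zero_vec]; simpa using h2
  by_cases hb : b' θ = 0
  · simp only [hb, form_zero_vec]; simpa using h1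
  have p1 := form_ee_pos B hpd ha
  have p2 := form_ee_pos B hpd hb
  generalize pencilForm B (a' θ) e e = α₁ at *
  generalize pencilForm B (b' θ) e e = α₂ at *
  generalize pencilForm B (a' θ) e x = β₁ at *
  generalize pencilForm B (b' θ) e x = β₂ at *
  generalize pencilForm B (a' θ) x x = γ₁ at *
  generalize pencilForm B (b' θ) x x = γ₂ at *
  have h3 : α₁ * α₂ * ((α₁ + α₂) * (γ₁ + γ₂)) ≤ α₁ * α₂ * (β₁ + β₂) ^ 2 := by
    have e1 : α₂ * (α₁ + α₂) * (α₁ * γ₁) ≤ α₂ * (α₁ + α₂) * β₁ ^ 2 :=
      mul_le_mul_of_nonneg_left h1 (by positivity)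
    have e2 : α₁ * (α₁ + α₂) * (α₂ * γ₂) ≤ α₁ * (α₁ + α₂) * β₂ ^ 2 :=
      mul_le_mul_of_nonneg_left h2 (by positivity)
    have e3 : (β₁ * α₂ - β₂ * α₁) ^ 2 = 0 := by rw [heq]; ring
    nlinarith
  exact le_of_mul_le_mul_left h3 (by positivity)

lemma quad_real_root {α β γ : ℝ} (hα : 0 < α) (hd : α * γ ≤ β ^ 2) {z : ℂ}
    (hz : z ^ 2 * (α : ℂ) - 2 * z * (β : ℂ) + (γ : ℂ) = 0) : z.im = 0 := by
  by_contra hne
  have hre := congrArg Complex.re hz
  have him := congrArg Complex.im hz
  simp [pow_two] at hre him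
  have h1 : z.re * α - β = 0 := by
    have : z.im * (z.re * α - β) = 0 := by linarith
    exact (mul_eq_zero.mp this).resolve_left hne
  have h2 : α * γ - β ^ 2 = (α * z.im) ^ 2 := by
    have hβ : β = z.re * α := by linarith
    subst hβ
    linear_combination α * hre
  have : 0 < (α * z.im) ^ 2 := by positivity
  linarith

theorem isHyperbolic {e : Fin n → ℝ} (hS : ∀ i j, (B i j).IsSymm) (hB : ∀ i j, B j i = B i j)
    (hpd : (bmat B e e).PosDef) (hrr : RealRootedForms B e) :
    IsHyperbolicPoly (pencilPoly B) e := by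
  refine ⟨⟨_, pencilPoly_isHomogeneous B⟩, ?_, ?_⟩
  · rw [eval_pencilPoly]; exact hpd.det_pos
  · intro x z hz
    rw [aeval_pencilPoly] at hz
    obtain ⟨w, hw0, hw⟩ := exists_mulVec_eq_zero_iff.mpr hz
    have hz0 : star w ⬝ᵥ ((∑ i, ∑ j, ((z * (e i : ℂ) - (x i : ℂ)) *
        (z * (e j : ℂ) - (x j : ℂ))) • (B i j).map (fun r : ℝ => (r : ℂ))) *ᵥ w) = 0 := by
      rw [hw]; simp
    set a : Fin k → ℝ := fun i => (w i).re
    set b : Fin k → ℝ := fun i => (w i).im
    have key : z ^ 2 * ((pencilForm B a e e + pencilForm B b e e : ℝ) : ℂ) -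
        2 * z * ((pencilForm B a e x + pencilForm B b e x : ℝ) : ℂ) +
        ((pencilForm B a x x + pencilForm B b x x : ℝ) : ℂ) = 0 := by
      rw [← hz0]
      simp only [sum_mulVec, smul_mulVec, dotProduct_sum, dotProduct_smul,
        star_dot_real _ (hS _ _), smul_eq_mul, two_mul]
      have hxe : ∀ c : Fin k → ℝ, pencilForm B c e x = pencilForm B c x e :=
        fun c => form_comm B hB c e x
      rw [add_mul]
      nth_rewrite 2 [hxe a, hxe b]
      unfold pencilForm
      push_cast
      simp only [mul_add, Finset.mul_sum, ← Finset.sum_add_distrib, ← Finset.sum_sub_distrib]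
      refine Finset.sum_congr rfl fun i _ => Finset.sum_congr rfl fun j _ => ?_
      simp only [a, b]
      ring
    refine quad_real_root ?_ (pair_real_rooted B hpd hrr a b x) key
    have hab : a ≠ 0 ∨ b ≠ 0 := by
      by_contra h
      simp only [not_or, not_not] at h
      exact hw0 (funext fun i => Complex.ext (congrFun h.1 i) (congrFun h.2 i))
    have hn : ∀ c : Fin k → ℝ, 0 ≤ pencilForm B c e e := fun c => by
      simpa [dot_bmat] using hpd.posSemidef.dotProduct_mulVec_nonneg c
    rcases hab with h | h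
    · linarith [form_ee_pos B hpd h, hn b]
    · linarith [form_ee_pos B hpd h, hn a]

lemma cone_eq {e : Fin n → ℝ} (hS : ∀ i j, (B i j).IsSymm) (hB : ∀ i j, B j i = B i j)
    (hpd : (bmat B e e).PosDef) (hrr : RealRootedForms B e) :
    hyperbolicityCone (pencilPoly B) e =
      {x | ∀ v, 0 ≤ pencilForm B v x x ∧ 0 ≤ pencilForm B v e x} := by
  ext x
  simp only [hyperbolicityCone, Set.mem_ofPred_eq, eval_pencilPoly]
  constructor
  · intro hx
    let f : (Fin k → ℝ) → ℝ := fun v =>
      (pencilForm B v e x - Real.sqrt (pencilForm B v e x ^ 2 -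
        pencilForm B v e e * pencilForm B v x x)) / pencilForm B v e e
    suffices H : ∀ v ∈ Metric.sphere (0 : Fin k → ℝ) 1,
        0 ≤ pencilForm B v x x ∧ 0 ≤ pencilForm B v e x by
      intro v
      by_cases hv : v = 0
      · simp [hv, form_zero_vec]
      · have hn : 0 < ‖v‖ := norm_pos_iff.mpr hv
        have := H (‖v‖⁻¹ • v) (by simp [norm_smul, hn.ne'])
        simp only [form_smul_vec] at this
        have h2 : 0 < (‖v‖⁻¹) ^ 2 := by positivity
        exact ⟨nonneg_of_mul_nonneg_right this.1 h2, nonneg_of_mul_nonneg_right this.2 h2⟩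
    intro v hv
    have hne : ∀ u ∈ Metric.sphere (0 : Fin k → ℝ) 1, u ≠ 0 := by
      intro u hu h; simp [h] at hu
    have cf : ∀ y z : Fin n → ℝ, Continuous fun u : Fin k → ℝ => pencilForm B u y z :=
      fun y z => (continuous_form B).comp (continuous_id.prodMk (continuous_const (y := (y, z))))
    have hc : ContinuousOn f (Metric.sphere (0 : Fin k → ℝ) 1) := by
      apply ContinuousOn.div
      · exact ((cf e x).sub ((((cf e x).pow 2).sub ((cf e e).mul (cf x x))).sqrt)).continuousOn
      · exact (cf e e).continuousOn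
      · exact fun u hu => (form_ee_pos B hpd (hne u hu)).ne'
    obtain ⟨w, hw, hmin⟩ := (isCompact_sphere (0 : Fin k → ℝ) 1).exists_isMinOn ⟨v, hv⟩ hc
    have key : ∀ u ∈ Metric.sphere (0 : Fin k → ℝ) 1, ∀ t, t ≤ f u →
        0 ≤ pencilForm B u (t • e - x) (t • e - x) ∧
        (t = f u → pencilForm B u (t • e - x) (t • e - x) = 0) := by
      intro u hu t ht
      have hp := form_ee_pos B hpd (hne u hu)
      have hd := hrr u x
      rw [form_expand B hB]
      simp only [f] at ht ⊢
      generalize pencilForm B u e e = α at *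
      generalize pencilForm B u e x = β at *
      generalize pencilForm B u x x = γ at *
      have hs := Real.sq_sqrt (sub_nonneg.mpr hd)
      have hsn := Real.sqrt_nonneg (β ^ 2 - α * γ)
      generalize Real.sqrt (β ^ 2 - α * γ) = s at *
      rw [le_div_iff₀ hp] at ht
      constructor
      · have : 0 ≤ α * (t ^ 2 * α - 2 * t * β + γ) := by nlinarith
        exact nonneg_of_mul_nonneg_right this hp
      · intro h
        rw [eq_div_iff hp.ne'] at h
        have : α * (t ^ 2 * α - 2 * t * β + γ) = 0 := by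
          linear_combination (t * α - β - s) * h + hs
        exact (mul_eq_zero.mp this).resolve_left hp.ne'
    have hpsd : (bmat B (f w • e - x) (f w • e - x)).PosSemidef := by
      refine PosSemidef.of_dotProduct_mulVec_nonneg ?_ ?_
      · have h := bmat_isSymm B hS (f w • e - x) (f w • e - x)
        simpa [Matrix.IsHermitian, Matrix.IsSymm] using h
      · intro u
        simp only [star_trivial, dot_bmat]
        by_cases hu : u = 0
        · simp [hu, form_zero_vec]
        · have hn : 0 < ‖u‖ := norm_pos_iff.mpr hu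
          have hus : ‖u‖⁻¹ • u ∈ Metric.sphere (0 : Fin k → ℝ) 1 := by simp [norm_smul, hn.ne']
          have := (key _ hus (f w) (hmin hus)).1
          rw [form_smul_vec] at this
          exact nonneg_of_mul_nonneg_right this (by positivity)
    have hz := (key w hw (f w) le_rfl).2 rfl
    have hker : bmat B (f w • e - x) (f w • e - x) *ᵥ w = 0 := by
      rw [← hpsd.dotProduct_mulVec_zero_iff]; simpa [dot_bmat] using hz
    have ht0 : 0 ≤ f w := hx _ (exists_mulVec_eq_zero_iff.mp ⟨w, hne w hw, hker⟩)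
    have hfv : 0 ≤ f v := ht0.trans (hmin hv)
    have h0 := (key v hv 0 hfv).1
    rw [form_expand B hB] at h0
    refine ⟨by simpa using h0, ?_⟩
    have hp := form_ee_pos B hpd (hne v hv)
    have h5 : 0 ≤ pencilForm B v e x - Real.sqrt (pencilForm B v e x ^ 2 -
        pencilForm B v e e * pencilForm B v x x) := by
      have := mul_nonneg hfv hp.le
      rwa [show f v * pencilForm B v e e = _ from div_mul_cancel₀ _ hp.ne'] at this
    linarith [Real.sqrt_nonneg (pencilForm B v e x ^ 2 -
      pencilForm B v e e * pencilForm B v x x)]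
  · intro h t ht
    obtain ⟨v, hv, hker⟩ := exists_mulVec_eq_zero_iff.mpr ht
    have hz : pencilForm B v (t • e - x) (t • e - x) = 0 := by
      rw [← dot_bmat, hker, dotProduct_zero]
    rw [form_expand B hB] at hz
    have hp := form_ee_pos B hpd hv
    by_contra hneg
    nlinarith [(h v).1, (h v).2, mul_pos (mul_pos_of_neg_of_neg (not_le.mp hneg) (not_le.mp hneg)) hp]

end Vale.Agent.P256
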