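import Vale.Agent.P256.Hyp

namespace Vale.Agent.P256

open Matrix

/-- A linear pencil in the variable and in auxiliary variables gives a spectrahedral shadow. -/
lemma shadow_of_linearMap {n : ℕ} {ι κ : Type} [Fintype ι] [Fintype κ]
    (Φ : ((Fin n → ℝ) × (ι → ℝ)) →ₗ[ℝ] Matrix κ κ ℝ) (hΦ : ∀ p, (Φ p).IsSymm)
    {S : Set (Fin n → ℝ)} (hS : ∀ x, x ∈ S ↔ ∃ u, (Φ (x, u)).PosSemidef) :
    IsSpectrahedralShadow S := by
  classical
  let eι := Fintype.equivFin ι
  let eκ := Fintype.equivFin κ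
  let red : Matrix κ κ ℝ → Matrix (Fin (Fintype.card κ)) (Fin (Fintype.card κ)) ℝ :=
    fun M => M.submatrix eκ.symm eκ.symm
  refine ⟨Fintype.card ι, Fintype.card κ, 0, fun i => red (Φ (Pi.single i 1, 0)),
    fun j => red (Φ (0, Pi.single (eι.symm j) 1)), by simp, fun i => (hΦ _).submatrix _,
    fun j => (hΦ _).submatrix _, ?_⟩
  have hx : ∀ (x : Fin n → ℝ) (u : ι → ℝ),
      Φ (x, u) = ∑ i, x i • Φ (Pi.single i 1, 0) +
        ∑ j, u (eι.symm j) • Φ (0, Pi.single (eι.symm j) 1) := by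
    intro x u
    have h1 : x = ∑ i, x i • (Pi.single i 1 : Fin n → ℝ) := pi_eq_sum_univ' x
    have h2 : u = ∑ j, u j • (Pi.single j 1 : ι → ℝ) := pi_eq_sum_univ' u
    rw [Equiv.sum_comp eι.symm (fun j => u j • Φ (0, Pi.single j 1))]
    simp only [← map_smul, ← map_sum, ← map_add]
    congr 1
    refine Prod.ext ?_ ?_
    · simpa [Prod.fst_sum] using h1
    · simpa [Prod.snd_sum] using h2
  have hred : ∀ (x : Fin n → ℝ) (u : ι → ℝ), red (Φ (x, u)) =
      0 + ∑ i, x i • red (Φ (Pi.single i 1, 0)) +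
        ∑ j, u (eι.symm j) • red (Φ (0, Pi.single (eι.symm j) 1)) := by
    intro x u
    ext r s
    simp [red, hx x u, Matrix.sum_apply]
  ext x
  rw [hS]
  constructor
  · rintro ⟨u, hu⟩
    refine ⟨fun j => u (eι.symm j), ?_⟩
    rw [← hred x u]
    exact hu.submatrix _
  · rintro ⟨u, hu⟩
    refine ⟨fun i => u (eι i), (posSemidef_submatrix_equiv eκ.symm).mp ?_⟩
    have := hred x (fun i => u (eι i))
    simp only [red, Equiv.apply_symm_apply] at this
    rw [this]
    exact hu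

lemma blockDiagonal_quad {κ o : Type} [Fintype κ] [Fintype o] [DecidableEq o]
    (M : o → Matrix κ κ ℝ) (x : κ × o → ℝ) :
    x ⬝ᵥ (blockDiagonal M *ᵥ x) =
      ∑ j, (fun i => x (i, j)) ⬝ᵥ (M j *ᵥ fun i => x (i, j)) := by
  simp only [dotProduct, mulVec, blockDiagonal_apply, Fintype.sum_prod_type, ite_mul, zero_mul,
    Finset.sum_ite_eq, Finset.mem_univ, if_true]
  rw [Finset.sum_comm]

lemma posSemidef_blockDiagonal_iff {κ o : Type} [Fintype κ] [Fintype o] [DecidableEq o]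
    (M : o → Matrix κ κ ℝ) :
    (blockDiagonal M).PosSemidef ↔ ∀ j, (M j).PosSemidef := by
  constructor
  · intro h j
    have hj : (blockDiagonal M).submatrix (fun i => (i, j)) (fun i => (i, j)) = M j := by
      ext a b; simp [blockDiagonal_apply]
    exact hj ▸ h.submatrix fun i => (i, j)
  · intro h
    refine PosSemidef.of_dotProduct_mulVec_nonneg ?_ fun x => ?_
    · unfold Matrix.IsHermitian
      rw [blockDiagonal_conjTranspose]
      exact congrArg _ (funext fun j => (h j).1)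
    · rw [star_trivial, blockDiagonal_quad]
      exact Finset.sum_nonneg fun j _ => by
        simpa using (h j).dotProduct_mulVec_nonneg fun i => x (i, j)

lemma posSemidef_fromBlocks_iff {κ₁ κ₂ : Type} [Fintype κ₁] [Fintype κ₂]
    (A : Matrix κ₁ κ₁ ℝ) (D : Matrix κ₂ κ₂ ℝ) :
    (fromBlocks A 0 0 D).PosSemidef ↔ A.PosSemidef ∧ D.PosSemidef := by
  constructor
  · intro h
    have hA : (fromBlocks A 0 0 D).submatrix Sum.inl Sum.inl = A := by ext; simp
    have hD : (fromBlocks A 0 0 D).submatrix Sum.inr Sum.inr = D := by ext; simp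
    exact ⟨hA ▸ h.submatrix Sum.inl, hD ▸ h.submatrix Sum.inr⟩
  · rintro ⟨hA, hD⟩
    refine PosSemidef.of_dotProduct_mulVec_nonneg ?_ fun x => ?_
    · exact hA.1.fromBlocks (by simp) hD.1
    · have h1 := hA.dotProduct_mulVec_nonneg (x ∘ Sum.inl)
      have h2 := hD.dotProduct_mulVec_nonneg (x ∘ Sum.inr)
      simp only [star_trivial, dotProduct, mulVec, Fintype.sum_sum_type, Function.comp] at h1 h2 ⊢
      simp only [fromBlocks_apply₁₁, fromBlocks_apply₁₂, fromBlocks_apply₂₁, fromBlocks_apply₂₂,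
        Matrix.zero_apply, zero_mul, Finset.sum_const_zero, add_zero, zero_add]
      linarith

/-- The bordered matrix `[[τ, uᵀ], [u, M]]`. -/
def border {n : ℕ} (τ : ℝ) (u : Fin n → ℝ) (M : Matrix (Fin n) (Fin n) ℝ) :
    Matrix (Unit ⊕ Fin n) (Unit ⊕ Fin n) ℝ :=
  fromBlocks (of fun _ _ => τ) (of fun _ j => u j) (of fun i _ => u i) M

lemma border_quad {n : ℕ} (τ a : ℝ) (u w : Fin n → ℝ) (M : Matrix (Fin n) (Fin n) ℝ) :
    Sum.elim (fun _ => a) w ⬝ᵥ (border τ u M *ᵥ Sum.elim (fun _ => a) w) =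
      τ * a ^ 2 + 2 * a * (u ⬝ᵥ w) + w ⬝ᵥ (M *ᵥ w) := by
  simp only [border, dotProduct, mulVec, Fintype.sum_sum_type, Sum.elim_inl, Sum.elim_inr,
    fromBlocks_apply₁₁, fromBlocks_apply₁₂, fromBlocks_apply₂₁, fromBlocks_apply₂₂, of_apply,
    Finset.univ_unique, Finset.sum_singleton, mul_add, Finset.sum_add_distrib]
  have e1 : a * ∑ x, u x * w x = ∑ x, a * (u x * w x) := Finset.mul_sum _ _ _
  have e2 : ∑ x, w x * (u x * a) = ∑ x, a * (u x * w x) :=
    Finset.sum_congr rfl fun x _ => by ring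
  rw [e2, e1, mul_assoc 2 a, e1]
  ring

lemma border_posSemidef_imp {n : ℕ} {τ : ℝ} {u : Fin n → ℝ} {M : Matrix (Fin n) (Fin n) ℝ}
    (h : (border τ u M).PosSemidef) :
    0 ≤ τ ∧ (τ = 0 → u = 0 ∧ M.PosSemidef) ∧
      (0 < τ → (M - τ⁻¹ • vecMulVec u u).PosSemidef) := by
  have hq : ∀ a w, 0 ≤ τ * a ^ 2 + 2 * a * (u ⬝ᵥ w) + w ⬝ᵥ (M *ᵥ w) := fun a w => by
    rw [← border_quad]
    simpa using h.dotProduct_mulVec_nonneg (Sum.elim (fun _ => a) w)
  have hM : M.PosSemidef := by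
    have hs : (border τ u M).submatrix Sum.inr Sum.inr = M := by ext; simp [border]
    exact hs ▸ h.submatrix Sum.inr
  refine ⟨by simpa using hq 1 0, fun h0 => ⟨?_, hM⟩, fun hp => ?_⟩
  · funext i
    by_contra hi
    have := hq (-((Pi.single i 1 : Fin n → ℝ) ⬝ᵥ (M *ᵥ Pi.single i 1) + 1) / (2 * u i))
      (Pi.single i 1)
    simp [h0] at this
    have hi' : u i ≠ 0 := hi
    field_simp at this
    linarith
  · refine PosSemidef.of_dotProduct_mulVec_nonneg ?_ fun w => ?_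
    · refine hM.1.sub ?_
      ext i j
      simp [vecMulVec_apply, mul_comm]
    · have := hq (-(u ⬝ᵥ w) / τ) w
      simp only [star_trivial, sub_mulVec, smul_mulVec, dotProduct_sub, dotProduct_smul,
        smul_eq_mul, vecMulVec_mulVec, op_smul_eq_smul, dotProduct_comm w u]
      field_simp at this ⊢
      nlinarith

lemma border_posSemidef_of_pos {n : ℕ} {τ : ℝ} (hτ : 0 < τ) (u : Fin n → ℝ) :
    (border τ u (τ⁻¹ • vecMulVec u u)).PosSemidef := by
  have h := (posSemidef_vecMulVec_self_star (Sum.elim (fun _ : Unit => τ) u)).smul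
    (inv_nonneg.mpr hτ.le)
  convert h using 1
  ext (i | i) (j | j) <;> simp [border, vecMulVec_apply] <;> field_simp

lemma border_zero {n : ℕ} : (border 0 (0 : Fin n → ℝ) 0).PosSemidef := by
  have : border 0 (0 : Fin n → ℝ) 0 = 0 := by ext (i | i) (j | j) <;> simp [border]
  rw [this]; exact PosSemidef.zero

end Vale.Agent.P256
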